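import Vale.Agent.P366C.Stm

/-! Cut-off functions, and invariance of the geometric quantities under a change of the data
inside the ball. -/

namespace Vale.Agent.P366C

open scoped Matrix ContDiff Topology
open Filter Set Matrix
open Vale.Agent.P366 (Pt Ten rad pd chr ric scal trg nsq mom mu cur curNorm gradNorm nu meanCurv trS
  sph area energyFlux momFlux Decay)

theorem cut_pf : CutStmt := by
  intro a b hab
  have hbc : 0 < b - (a + b) / 2 := by linarith
  refine ⟨fun t => Real.smoothTransition ((t - (a + b) / 2) / (b - (a + b) / 2)) * t +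
    (1 - Real.smoothTransition ((t - (a + b) / 2) / (b - (a + b) / 2))) * b, ?_, ?_, ?_⟩
  · have hs : ContDiff ℝ ∞ fun t : ℝ =>
        Real.smoothTransition ((t - (a + b) / 2) / (b - (a + b) / 2)) :=
      Real.smoothTransition.contDiff.comp ((contDiff_id.sub contDiff_const).div_const _)
    exact (hs.mul contDiff_id).add ((contDiff_const.sub hs).mul contDiff_const)
  · intro t
    have h0 := Real.smoothTransition.nonneg ((t - (a + b) / 2) / (b - (a + b) / 2))
    have h1 := Real.smoothTransition.le_one ((t - (a + b) / 2) / (b - (a + b) / 2))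
    rcases le_or_gt t ((a + b) / 2) with ht | ht
    · have hz : Real.smoothTransition ((t - (a + b) / 2) / (b - (a + b) / 2)) = 0 :=
        Real.smoothTransition.zero_of_nonpos
          (div_nonpos_of_nonpos_of_nonneg (by linarith) hbc.le)
      simp only [hz]
      linarith
    · set s := Real.smoothTransition ((t - (a + b) / 2) / (b - (a + b) / 2)) with hs
      show a < s * t + (1 - s) * b
      have e1 : s * ((a + b) / 2) ≤ s * t := mul_le_mul_of_nonneg_left ht.le h0
      have e2 : (1 - s) * ((a + b) / 2) ≤ (1 - s) * b :=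
        mul_le_mul_of_nonneg_left (by linarith) (by linarith)
      nlinarith
  · intro t ht
    have ho : Real.smoothTransition ((t - (a + b) / 2) / (b - (a + b) / 2)) = 1 :=
      Real.smoothTransition.one_of_one_le ((one_le_div hbc).2 (by linarith))
    simp only [ho]
    ring

namespace CongrAux

variable {n : ℕ}

theorem rad_cont : Continuous (rad : Pt n → ℝ) := by
  unfold rad
  exact (continuous_id.dotProduct continuous_id).sqrt

theorem rad_smul (s : ℝ) (hs : 0 ≤ s) (x : Pt n) : rad (s • x) = s * rad x := by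
  unfold rad
  rw [smul_dotProduct, dotProduct_smul, smul_eq_mul, smul_eq_mul, ← mul_assoc,
    Real.sqrt_mul (mul_nonneg hs hs), Real.sqrt_mul_self hs]

theorem rad_sphere (w : Metric.sphere (0 : EuclideanSpace ℝ (Fin n)) 1) : rad w.1.ofLp = 1 := by
  have h : ‖w.1‖ = 1 := mem_sphere_zero_iff_norm.1 w.2
  have h2 : w.1.ofLp ⬝ᵥ w.1.ofLp = ‖w.1‖ ^ 2 := by
    rw [EuclideanSpace.real_norm_sq_eq]
    simp only [dotProduct, sq]
  unfold rad
  rw [h2, h]
  simp

theorem sph_congr {r : ℝ} (hr : 0 ≤ r) {F G : Pt n → ℝ} (h : ∀ x, rad x = r → F x = G x) :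
    sph r F = sph r G := by
  unfold sph
  have e : (fun w : Metric.sphere (0 : EuclideanSpace ℝ (Fin n)) 1 => F (r • w.1.ofLp)) =
      fun w => G (r • w.1.ofLp) := by
    funext w
    apply h
    rw [rad_smul r hr, rad_sphere, mul_one]
  rw [e]

theorem pd_eq {f f' : Pt n → ℝ} {x : Pt n} (h : f =ᶠ[𝓝 x] f') (i : Fin n) :
    pd i f x = pd i f' x := by
  unfold pd
  rw [h.fderiv_eq]

theorem pd_ev {f f' : Pt n → ℝ} {x : Pt n} (h : f =ᶠ[𝓝 x] f') (i : Fin n) :
    pd i f =ᶠ[𝓝 x] pd i f' :=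
  h.eventuallyEq_nhds.mono fun _ hy => pd_eq hy i

theorem ent_ev {g g' : Ten n} {x : Pt n} (h : g =ᶠ[𝓝 x] g') (i j : Fin n) :
    (fun y => g y i j) =ᶠ[𝓝 x] fun y => g' y i j :=
  h.mono fun y hy => by
    show g y i j = g' y i j
    rw [hy]

theorem chr_eq' {g g' : Ten n} {x : Pt n} (h0 : g x = g' x)
    (h : ∀ k i j, pd k (fun y => g y i j) x = pd k (fun y => g' y i j) x) (k i j : Fin n) :
    chr g k i j x = chr g' k i j x := by
  unfold chr
  simp only [h0, h]

theorem chr_eq {g g' : Ten n} {x : Pt n} (h : g =ᶠ[𝓝 x] g') (k i j : Fin n) :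
    chr g k i j x = chr g' k i j x :=
  chr_eq' h.eq_of_nhds (fun k i j => pd_eq (ent_ev h i j) k) k i j

theorem chr_ev {g g' : Ten n} {x : Pt n} (h : g =ᶠ[𝓝 x] g') (k i j : Fin n) :
    chr g k i j =ᶠ[𝓝 x] chr g' k i j :=
  h.eventuallyEq_nhds.mono fun _ hy => chr_eq hy k i j

theorem ric_eq {g g' : Ten n} {x : Pt n} (h : g =ᶠ[𝓝 x] g') (i j : Fin n) :
    ric g i j x = ric g' i j x := by
  unfold ric
  have h1 : ∀ m k i j, pd m (chr g k i j) x = pd m (chr g' k i j) x :=
    fun m k i j => pd_eq (chr_ev h k i j) m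
  simp only [h1, chr_eq h]

theorem scal_eq {g g' : Ten n} {x : Pt n} (h : g =ᶠ[𝓝 x] g') : scal g x = scal g' x := by
  unfold scal
  simp only [h.eq_of_nhds, ric_eq h]

theorem trg_eq {g g' K K' : Ten n} {x : Pt n} (h : g x = g' x) (hK : K x = K' x) :
    trg g K x = trg g' K' x := by
  unfold trg
  simp only [h, hK]

theorem nsq_eq {g g' K K' : Ten n} {x : Pt n} (h : g x = g' x) (hK : K x = K' x) :
    nsq g K x = nsq g' K' x := by
  unfold nsq
  simp only [h, hK]

theorem mom_eq {g g' K K' : Ten n} {x : Pt n} (h : g x = g' x) (hK : K x = K' x) :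
    mom g K x = mom g' K' x := by
  unfold mom
  simp only [trg_eq h hK, h, hK]

theorem mom_ev {g g' K K' : Ten n} {x : Pt n} (h : g =ᶠ[𝓝 x] g') (hK : K =ᶠ[𝓝 x] K') :
    mom g K =ᶠ[𝓝 x] mom g' K' :=
  (h.and hK).mono fun _ hy => mom_eq hy.1 hy.2

theorem mu_eq {g g' K K' : Ten n} {x : Pt n} (h : g =ᶠ[𝓝 x] g') (hK : K =ᶠ[𝓝 x] K') :
    mu g K x = mu g' K' x := by
  unfold mu
  rw [scal_eq h, trg_eq h.eq_of_nhds hK.eq_of_nhds, nsq_eq h.eq_of_nhds hK.eq_of_nhds]

theorem cur_eq {g g' K K' : Ten n} {x : Pt n} (h : g =ᶠ[𝓝 x] g') (hK : K =ᶠ[𝓝 x] K')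
    (j : Fin n) : cur g K j x = cur g' K' j x := by
  unfold cur
  have h1 : ∀ i k j, pd i (fun y => mom g K y k j) x = pd i (fun y => mom g' K' y k j) x :=
    fun i k j => pd_eq (ent_ev (mom_ev h hK) k j) i
  simp only [h1, chr_eq h, h.eq_of_nhds, mom_eq h.eq_of_nhds hK.eq_of_nhds]

theorem curNorm_eq {g g' K K' : Ten n} {x : Pt n} (h : g =ᶠ[𝓝 x] g') (hK : K =ᶠ[𝓝 x] K') :
    curNorm g K x = curNorm g' K' x := by
  unfold curNorm
  simp only [cur_eq h hK, h.eq_of_nhds]

theorem gradNorm_eq {g g' : Ten n} {x : Pt n} (h : g x = g' x) :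
    gradNorm g x = gradNorm g' x := by
  unfold gradNorm
  simp only [h]

theorem nu_eq {g g' : Ten n} {x : Pt n} (h : g x = g' x) (i : Fin n) :
    nu g x i = nu g' x i := by
  unfold nu
  simp only [h, gradNorm_eq h]

theorem trS_eq {g g' K K' : Ten n} {x : Pt n} (h : g x = g' x) (hK : K x = K' x) :
    trS g K x = trS g' K' x := by
  unfold trS
  simp only [h, hK, nu_eq h]

theorem meanCurv_eq {g g' : Ten n} {x : Pt n} (h0 : g x = g' x)
    (h : ∀ k i j, pd k (fun y => g y i j) x = pd k (fun y => g' y i j) x) :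
    meanCurv g x = meanCurv g' x := by
  unfold meanCurv
  simp only [h0, nu_eq h0, gradNorm_eq h0, chr_eq' h0 h]

/-- Agreement outside the ball gives agreement near every point strictly outside. -/
theorem ev_of_lt {α : Type*} {f f' : Pt n → α} {R : ℝ} (h : ∀ x, R ≤ rad x → f x = f' x)
    {x : Pt n} (hx : R < rad x) : f =ᶠ[𝓝 x] f' := by
  have ho : IsOpen {y : Pt n | R < rad y} := isOpen_lt continuous_const rad_cont
  exact Filter.mem_of_superset (ho.mem_nhds hx) fun y hy => h y (le_of_lt hy)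

/-- At a boundary point the first derivatives agree by continuity. -/
theorem pd_bdry {f f' : Pt n → ℝ} {R : ℝ} (hR : 0 < R) (h : ∀ x, R ≤ rad x → f x = f' x)
    {x : Pt n} (hx : rad x = R) (hf : ContDiffAt ℝ 1 f x) (hf' : ContDiffAt ℝ 1 f' x)
    (k : Fin n) : pd k f x = pd k f' x := by
  have c1 : ContinuousAt (fderiv ℝ f) x := hf.continuousAt_fderiv one_ne_zero
  have c2 : ContinuousAt (fderiv ℝ f') x := hf'.continuousAt_fderiv one_ne_zero
  have hs : Tendsto (fun s : ℝ => s • x) (𝓝[>] 1) (𝓝 x) := by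
    have hc : Continuous fun s : ℝ => s • x := continuous_id.smul continuous_const
    have ht := hc.tendsto 1
    rw [one_smul] at ht
    exact ht.mono_left nhdsWithin_le_nhds
  have t1 : Tendsto (fun s : ℝ => fderiv ℝ f (s • x)) (𝓝[>] 1) (𝓝 (fderiv ℝ f x)) :=
    c1.tendsto.comp hs
  have t2 : Tendsto (fun s : ℝ => fderiv ℝ f' (s • x)) (𝓝[>] 1) (𝓝 (fderiv ℝ f' x)) :=
    c2.tendsto.comp hs
  have e : (fun s : ℝ => fderiv ℝ f (s • x)) =ᶠ[𝓝[>] 1] fun s : ℝ => fderiv ℝ f' (s • x) := by
    filter_upwards [self_mem_nhdsWithin] with s hs1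
    have hs1' : (1 : ℝ) < s := hs1
    have hlt : R < rad (s • x) := by
      rw [rad_smul s (by linarith), hx]
      nlinarith
    exact (ev_of_lt h hlt).fderiv_eq
  have := tendsto_nhds_unique (t1.congr' e) t2
  unfold pd
  rw [this]

end CongrAux

open CongrAux in
theorem congr_pf : CongrStmt := by
  intro n g g' K K' R hR h hc
  have hg : ∀ x, R ≤ rad x → g x = g' x := fun x hx => (h x hx).1
  have hK : ∀ x, R ≤ rad x → K x = K' x := fun x hx => (h x hx).2
  refine ⟨?_, ?_, ?_, ?_, ?_⟩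
  · intro x hx
    exact ⟨mu_eq (ev_of_lt hg hx) (ev_of_lt hK hx), curNorm_eq (ev_of_lt hg hx) (ev_of_lt hK hx)⟩
  · intro x hx
    refine ⟨meanCurv_eq (hg x hx.ge) fun k i j => ?_, trS_eq (hg x hx.ge) (hK x hx.ge)⟩
    refine pd_bdry hR (fun y hy => ?_) hx (hc x hx i j).1 (hc x hx i j).2 k
    rw [hg y hy]
  · intro r hr
    unfold area
    refine sph_congr (by linarith) fun x hx => ?_
    have hx' : R ≤ rad x := by rw [hx]; exact hr
    simp only [hg x hx']
  · intro r hr
    refine ⟨?_, fun i => ?_⟩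
    · unfold energyFlux
      have e : sph r (fun x => ∑ i, ∑ j,
          (pd j (fun y => g y i j) x - pd i (fun y => g y j j) x) * (x i / r)) =
          sph r (fun x => ∑ i, ∑ j,
          (pd j (fun y => g' y i j) x - pd i (fun y => g' y j j) x) * (x i / r)) := by
        refine sph_congr (by linarith) fun x hx => ?_
        have hx' : R < rad x := by rw [hx]; exact hr
        have h1 : ∀ k i j, pd k (fun y => g y i j) x = pd k (fun y => g' y i j) x :=
          fun k i j => pd_eq (ent_ev (ev_of_lt hg hx') i j) k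
        simp only [h1]
      rw [e]
    · unfold momFlux
      have e : sph r (fun x => ∑ j, mom g K x i j * (x j / r)) =
          sph r (fun x => ∑ j, mom g' K' x i j * (x j / r)) := by
        refine sph_congr (by linarith) fun x hx => ?_
        have hx' : R ≤ rad x := by rw [hx]; exact hr.le
        simp only [mom_eq (hg x hx') (hK x hx')]
      rw [e]
  · rintro τ ⟨M, hM⟩
    refine ⟨M, fun x hx i j k l => ?_⟩
    have hx' : R < rad x := by linarith
    have e1 := ev_of_lt hg hx'
    have e2 := ev_of_lt hK hx'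
    have := hM x hx'.le i j k l
    rw [e1.eq_of_nhds, e2.eq_of_nhds, pd_eq (ent_ev e1 i j) k,
      pd_eq (pd_ev (ent_ev e1 i j) k) l, pd_eq (ent_ev e2 i j) k] at this
    exact this

end Vale.Agent.P366C
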