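import Vale.Agent.P366C.Stm

/-! Elementary properties of the group `Spin(9)`. -/

namespace Vale.Agent.P366C

open scoped Matrix ContDiff Topology
open Matrix
open Vale.Agent.P366 (Pt)
open Vale.Agent.P366N (IsCliff prL)

namespace GrpAux

variable {S : Fin 9 → Matrix (Fin 16) (Fin 16) ℝ} {U : Matrix (Fin 16) (Fin 16) ℝ}

theorem sgl (S : Fin 9 → Matrix (Fin 16) (Fin 16) ℝ) (i : Fin 9) :
    ∑ j, (Pi.single i (1 : ℝ) : Fin 9 → ℝ) j • S j = S i := by
  simp [Pi.single_apply]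

theorem conj_sum (U : Matrix (Fin 16) (Fin 16) ℝ) (b : Fin 9 → ℝ) :
    U * (∑ i, b i • S i) * Uᵀ = ∑ i, b i • (U * S i * Uᵀ) := by
  simp only [Matrix.mul_sum, Matrix.sum_mul, Matrix.mul_smul, Matrix.smul_mul]

theorem sw2 (b : Fin 9 → ℝ) (a : Fin 9 → Fin 9 → ℝ) :
    ∑ i, b i • ∑ j, a i j • S j = ∑ j, (∑ i, b i * a i j) • S j := by
  simp only [Finset.smul_sum, Finset.sum_smul, smul_smul]
  exact Finset.sum_comm

theorem dot (hU : Uᵀ * U = 1) (x y : Pt 16) : (U *ᵥ x) ⬝ᵥ (U *ᵥ y) = x ⬝ᵥ y := by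
  rw [Matrix.dotProduct_mulVec, ← Matrix.mulVec_transpose, Matrix.mulVec_mulVec, hU,
    Matrix.one_mulVec]

theorem orth (h : IsCliff S) (hU : Uᵀ * U = 1) {a : Fin 9 → Fin 9 → ℝ}
    (ha : ∀ i, U * S i * Uᵀ = ∑ j, a i j • S j) (j k : Fin 9) :
    ∑ i, a i j * a i k = if j = k then 1 else 0 := by
  have hU' : U * Uᵀ = 1 := mul_eq_one_comm.1 hU
  have h1 : Matrix.of a * (Matrix.of a)ᵀ = 1 := by
    ext i j
    have e := h.cl (a i) (a j)
    have e2 : U * S i * Uᵀ * (U * S j * Uᵀ) + U * S j * Uᵀ * (U * S i * Uᵀ) =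
        U * (S i * S j + S j * S i) * Uᵀ := by
      simp only [Matrix.mul_add, Matrix.add_mul, Matrix.mul_assoc, ← Matrix.mul_assoc Uᵀ U, hU,
        Matrix.one_mul]
    rw [← ha, ← ha, e2, h.anti] at e
    have e3 : (Matrix.of a * (Matrix.of a)ᵀ) i j = ∑ k, a i k * a j k := rfl
    rw [e3, Matrix.one_apply]
    split_ifs at e ⊢ with hij
    · rw [Matrix.mul_smul, Matrix.smul_mul, Matrix.mul_one, hU'] at e
      have := congrFun (congrFun e 0) 0
      simp only [Matrix.smul_apply, Matrix.one_apply_eq, smul_eq_mul] at this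
      linarith
    · rw [Matrix.mul_zero, Matrix.zero_mul] at e
      have := congrFun (congrFun e 0) 0
      simp only [Matrix.smul_apply, Matrix.one_apply_eq, smul_eq_mul, Matrix.zero_apply] at this
      linarith
  have h2 : (Matrix.of a)ᵀ * Matrix.of a = 1 := mul_eq_one_comm.1 h1
  have h3 : ∑ i, a i j * a i k = ((Matrix.of a)ᵀ * Matrix.of a) j k := rfl
  rw [h3, h2, Matrix.one_apply]

end GrpAux

open GrpAux in
theorem grp_pf : GrpStmt := by
  intro S h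
  refine ⟨⟨by simp, fun i => ⟨Pi.single i 1, by rw [sgl]; simp⟩⟩, ?_, fun c hc => ?_, ?_⟩
  · rintro U ⟨hU, hU'⟩ V ⟨hV, hV'⟩
    choose a ha using hU'
    refine ⟨?_, fun i => ?_⟩
    · rw [Matrix.transpose_mul, Matrix.mul_assoc, ← Matrix.mul_assoc Uᵀ, hU, Matrix.one_mul, hV]
    · obtain ⟨b, hb⟩ := hV' i
      refine ⟨fun j => ∑ k, b k * a k j, ?_⟩
      have e : U * V * S i * (U * V)ᵀ = U * (V * S i * Vᵀ) * Uᵀ := by
        simp only [Matrix.transpose_mul, Matrix.mul_assoc]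
      rw [e, hb, conj_sum, ← sw2]
      simp only [ha]
  · have hT : (∑ i, c i • S i)ᵀ = ∑ i, c i • S i := by simp [Matrix.transpose_sum, h.1]
    have h1 : (∑ i, c i • S i) * (∑ i, c i • S i) = 1 := by
      rw [h.sq, show ∑ i, c i * c i = 1 from hc, one_smul]
    refine ⟨by rw [hT, h1], fun i =>
      ⟨fun j => 2 * c i * c j - (Pi.single i (1 : ℝ) : Fin 9 → ℝ) j, ?_⟩⟩
    have e := h.cl c (Pi.single i 1)
    have e2 : ∑ j, c j * (Pi.single i (1 : ℝ) : Fin 9 → ℝ) j = c i := by simp [Pi.single_apply]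
    rw [sgl, e2] at e
    rw [hT, eq_sub_of_add_eq e, Matrix.sub_mul, Matrix.mul_assoc, h1, Matrix.mul_one,
      Matrix.smul_mul, Matrix.one_mul]
    simp only [sub_smul, Finset.sum_sub_distrib, sgl, Finset.smul_sum, smul_smul]
  · rintro U ⟨hU, hU'⟩ x
    choose a ha using hU'
    have hU' : U * Uᵀ = 1 := mul_eq_one_comm.1 hU
    have h1 : ∀ j, S j = ∑ i, a i j • (U * S i * Uᵀ) := fun j => by
      simp only [ha]
      rw [sw2]
      simp [orth h hU ha]
    have h2 : ∀ j, (U *ᵥ x) ⬝ᵥ (S j *ᵥ (U *ᵥ x)) = ∑ i, (x ⬝ᵥ (S i *ᵥ x)) * a i j := fun j => by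
      rw [h1 j, Matrix.sum_mulVec, dotProduct_sum]
      refine Finset.sum_congr rfl fun i _ => ?_
      rw [Matrix.smul_mulVec, dotProduct_smul, Matrix.mulVec_mulVec, Matrix.mul_assoc, hU,
        Matrix.mul_one, ← Matrix.mulVec_mulVec, dot hU, smul_eq_mul, mul_comm]
    rw [prL, prL, dot hU, Matrix.mul_smul, Matrix.smul_mul, Matrix.mul_add, Matrix.add_mul,
      Matrix.mul_one, hU', Matrix.mul_smul, Matrix.smul_mul, conj_sum]
    simp only [h2, ha]
    rw [sw2]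

end Vale.Agent.P366C
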