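import Vale.Agent.P366C.Stm

/-! Invariant tensors under the group of the nine involutions have the form of the ansatz. -/

namespace Vale.Agent.P366C

open scoped Matrix ContDiff Topology
open Filter Set Matrix
open Vale.Agent.P366 (Pt Ten rad pr0 dot_pos)
open Vale.Agent.P366N (IsCliff prL blk hopf Hor Ver blk_x blk_ver blk_hor blk_T blk_mul blk_trace
  blk_hor_mem blk_ver_mem decomp prL_x)

namespace Inv9A

variable {S : Fin 9 → Matrix (Fin 16) (Fin 16) ℝ}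

theorem symm_ext {M N : Matrix (Fin 16) (Fin 16) ℝ} (hM : Mᵀ = M) (hN : Nᵀ = N)
    (h : ∀ u : Pt 16, u ⬝ᵥ (M *ᵥ u) = u ⬝ᵥ (N *ᵥ u)) : M = N := by
  ext i j
  have e : ∀ (P : Matrix (Fin 16) (Fin 16) ℝ) (a b : Fin 16),
      (Pi.single a 1 : Pt 16) ⬝ᵥ (P *ᵥ Pi.single b 1) = P a b := fun P a b => by simp
  have h1 := h (Pi.single i 1 + Pi.single j 1)
  have h2 := h (Pi.single i 1)
  have h3 := h (Pi.single j 1)
  have h4 : M j i = M i j := congrFun (congrFun hM i) j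
  have h5 : N j i = N i j := congrFun (congrFun hN i) j
  simp only [Matrix.mulVec_add, add_dotProduct, dotProduct_add, e] at h1 h2 h3
  linarith

theorem scal (P : Pt 16 → Prop) (M : Matrix (Fin 16) (Fin 16) ℝ)
    (hs : ∀ (c : ℝ) v, P v → P (c • v))
    (h : ∀ v w, P v → P w → v ⬝ᵥ v = w ⬝ᵥ w → v ⬝ᵥ (M *ᵥ v) = w ⬝ᵥ (M *ᵥ w)) :
    ∃ κ : ℝ, ∀ v, P v → v ⬝ᵥ (M *ᵥ v) = κ * (v ⬝ᵥ v) := by
  by_cases h0 : ∃ v, P v ∧ v ≠ 0
  · obtain ⟨v₀, hv₀, hne⟩ := h0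
    have hp := dot_pos hne
    refine ⟨v₀ ⬝ᵥ (M *ᵥ v₀) / (v₀ ⬝ᵥ v₀), fun v hv => ?_⟩
    have hnn : 0 ≤ v ⬝ᵥ v := Finset.sum_nonneg fun i _ => mul_self_nonneg (v i)
    have hq : √(v ⬝ᵥ v / (v₀ ⬝ᵥ v₀)) * √(v ⬝ᵥ v / (v₀ ⬝ᵥ v₀)) = v ⬝ᵥ v / (v₀ ⬝ᵥ v₀) :=
      Real.mul_self_sqrt (div_nonneg hnn hp.le)
    generalize √(v ⬝ᵥ v / (v₀ ⬝ᵥ v₀)) = s at hq
    rw [h v (s • v₀) hv (hs s v₀ hv₀) ?_]
    · rw [Matrix.mulVec_smul, smul_dotProduct, dotProduct_smul, smul_eq_mul, smul_eq_mul,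
        ← mul_assoc, hq]
      ring
    · rw [smul_dotProduct, dotProduct_smul, smul_eq_mul, smul_eq_mul, ← mul_assoc, hq]
      field_simp
  · refine ⟨0, fun v hv => ?_⟩
    have : v = 0 := by
      by_contra hne
      exact h0 ⟨v, hv, hne⟩
    simp [this]

theorem form_inv {U M : Matrix (Fin 16) (Fin 16) ℝ} (hU : Uᵀ * U = 1) (hM : M = U * M * Uᵀ)
    (u v : Pt 16) : (U *ᵥ u) ⬝ᵥ (M *ᵥ (U *ᵥ v)) = u ⬝ᵥ (M *ᵥ v) := by
  have h1 : M * U = U * M := by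
    conv_lhs => rw [hM]
    rw [Matrix.mul_assoc, hU, Matrix.mul_one]
  rw [Matrix.mulVec_mulVec, h1, ← Matrix.mulVec_mulVec, ← Matrix.vecMul_transpose,
    ← Matrix.dotProduct_mulVec, Matrix.mulVec_mulVec, hU, Matrix.one_mulVec]

theorem form_symm {M : Matrix (Fin 16) (Fin 16) ℝ} (hM : Mᵀ = M) (u v : Pt 16) :
    u ⬝ᵥ (M *ᵥ v) = v ⬝ᵥ (M *ᵥ u) := by
  rw [Matrix.dotProduct_mulVec, ← Matrix.mulVec_transpose, hM, dotProduct_comm]

theorem schur (hI : IsoStmt) (hS : IsCliff S) {x : Pt 16} (hx : x ≠ 0)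
    {M : Matrix (Fin 16) (Fin 16) ℝ} (hM : Mᵀ = M)
    (h : ∀ U ∈ spinGroup S, U *ᵥ x = x → M = U * M * Uᵀ) : ∃ A B C : ℝ, M = blk S x A B C := by
  obtain ⟨⟨U₀, hU₀, h1, h2⟩, h3, h4⟩ := hI S x hS hx
  have hp := dot_pos hx
  have hM₀ := h U₀ hU₀ (h1 x (prL_x hS hx))
  have c1 : ∀ z v, prL S x *ᵥ z = z → Hor S x v → z ⬝ᵥ (M *ᵥ v) = 0 := fun z v hz hv => by
    have := form_inv hU₀.1 hM₀ z v
    rw [h1 z hz, h2 v hv, Matrix.mulVec_neg, dotProduct_neg] at this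
    linarith
  have sv : ∀ (c : ℝ) v, Ver S x v → Ver S x (c • v) := fun c v hv =>
    ⟨by rw [Matrix.mulVec_smul, hv.1], by rw [dotProduct_smul, hv.2, smul_zero]⟩
  have sh : ∀ (c : ℝ) v, Hor S x v → Hor S x (c • v) := fun c v hv => by
    show prL S x *ᵥ (c • v) = 0
    rw [Matrix.mulVec_smul, show prL S x *ᵥ v = 0 from hv, smul_zero]
  have c2 : ∀ y, Ver S x y → x ⬝ᵥ (M *ᵥ y) = 0 := fun y hy => by
    obtain ⟨U, hU, e1, e2⟩ := h4 y (-y) hy (by simpa using sv (-1) y hy) (by simp)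
    have := form_inv hU.1 (h U hU e1) x y
    rw [e1, e2, Matrix.mulVec_neg, dotProduct_neg] at this
    linarith
  obtain ⟨C, hC⟩ := scal (Hor S x) M sh fun v w hv hw e => by
    obtain ⟨U, hU, e1, e2⟩ := h3 v w hv hw e
    rw [← e2, form_inv hU.1 (h U hU e1)]
  obtain ⟨B, hB⟩ := scal (Ver S x) M sv fun v w hv hw e => by
    obtain ⟨U, hU, e1, e2⟩ := h4 v w hv hw e
    rw [← e2, form_inv hU.1 (h U hU e1)]
  refine ⟨x ⬝ᵥ (M *ᵥ x) / (x ⬝ᵥ x), B, C, symm_ext hM (blk_T hS _ _ _ _) fun u => ?_⟩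
  have hd := decomp S x u
  have hv := blk_hor_mem hS hx u
  have hy := blk_ver_mem hS hx u
  generalize blk S x 0 0 1 *ᵥ u = v at hd hv
  generalize blk S x 0 1 0 *ᵥ u = y at hd hy
  generalize (x ⬝ᵥ u) / (x ⬝ᵥ x) = a at hd
  have o1 : x ⬝ᵥ v = 0 := hv.x_dot hS hx
  have o2 : y ⬝ᵥ v = 0 := Hor.ver_dot hS hy hv
  have o3 : x ⬝ᵥ y = 0 := hy.2
  have m1 := c1 x v (prL_x hS hx) hv
  have m2 := c1 y v hy.1 hv
  have m3 := c2 y hy
  rw [hd]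
  simp only [Matrix.mulVec_add, Matrix.mulVec_smul, add_dotProduct, dotProduct_add, smul_dotProduct,
    dotProduct_smul, smul_eq_mul, blk_x hS hx, blk_ver hy, blk_hor hS hx hv, hC v hv, hB y hy,
    form_symm hM v x, form_symm hM v y, form_symm hM y x, m1, m2, m3, dotProduct_comm v x,
    dotProduct_comm v y, dotProduct_comm y x, o1, o2, o3]
  field_simp
  ring

theorem blk_scale {x : Pt 16} (hx : x ≠ 0) {s : ℝ} (hs : s ≠ 0) (A B C : ℝ) :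
    blk S (s • x) A B C = blk S x A B C := by
  have hp := (dot_pos hx).ne'
  have h1 : pr0 (s • x) = pr0 x := by
    ext i j
    simp only [pr0, smul_dotProduct, dotProduct_smul, Matrix.smul_apply, Matrix.vecMulVec_apply,
      Pi.smul_apply, smul_eq_mul]
    field_simp
  have h2 : prL S (s • x) = prL S x := by
    simp only [prL, Finset.smul_sum, smul_smul, smul_dotProduct, dotProduct_smul,
      Matrix.mulVec_smul, smul_eq_mul]
    refine congrArg (fun z => (1 / 2 : ℝ) • (1 + z)) (Finset.sum_congr rfl fun i _ => ?_)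
    refine congrArg (fun c : ℝ => c • S i) ?_
    field_simp
  rw [blk, blk, h1, h2]

theorem blk_conj (hG : GrpStmt) (hS : IsCliff S) {U : Matrix (Fin 16) (Fin 16) ℝ}
    (hU : U ∈ spinGroup S) (x : Pt 16) (A B C : ℝ) :
    U * blk S x A B C * Uᵀ = blk S (U *ᵥ x) A B C := by
  have h0 : U * Uᵀ = 1 := mul_eq_one_comm.1 hU.1
  have hd : (U *ᵥ x) ⬝ᵥ (U *ᵥ x) = x ⬝ᵥ x := by
    have := form_inv (M := 1) hU.1 (by rw [Matrix.mul_one, h0]) x x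
    rwa [Matrix.one_mulVec, Matrix.one_mulVec] at this
  have h1 : pr0 (U *ᵥ x) = U * pr0 x * Uᵀ := by
    rw [pr0, pr0, hd, Matrix.mul_smul, Matrix.smul_mul, Matrix.mul_vecMulVec, Matrix.vecMulVec_mul,
      Matrix.vecMul_transpose]
  rw [blk, blk, h1, (hG S hS).2.2.2 U hU x]
  simp only [Matrix.mul_add, Matrix.add_mul, Matrix.mul_smul, Matrix.smul_mul, Matrix.mul_sub,
    Matrix.sub_mul, Matrix.mul_one, h0]

end Inv9A

open Inv9A in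
theorem inv9_pf (hG : GrpStmt) (hI : IsoStmt) (hT : Trans9Stmt) (hC : CutStmt) : Inv9Stmt := by
  intro S h R₀ R hS hR hR₀ hsm hsy hinv
  have hm : max R₀ 0 < R := max_lt hR₀ hR
  obtain ⟨χ, hχ, hχ1, hχ2⟩ := hC (max R₀ 0 ^ 2) (R ^ 2)
    (pow_lt_pow_left₀ hm (le_max_right _ _) two_ne_zero)
  obtain ⟨e, he⟩ : ∃ e : Pt 16, e ⬝ᵥ e = 1 := ⟨Pi.single 0 1, by simp⟩
  have he0 : e ≠ 0 := fun q => by simp [q] at he
  have hd : ∀ t, 0 ≤ t → (√t • e) ⬝ᵥ (√t • e) = t := fun t ht => by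
    rw [smul_dotProduct, dotProduct_smul, he, smul_eq_mul, smul_eq_mul, mul_one,
      Real.mul_self_sqrt ht]
  have key : ∀ (N : Matrix (Fin 16) (Fin 16) ℝ) (c : ℝ),
      ContDiff ℝ ∞ (fun t => (h (√(χ t) • e) * N).trace / c) := fun N c => by
    refine contDiff_iff_contDiffAt.2 fun t => ?_
    have hp : 0 < χ t := lt_of_le_of_lt (sq_nonneg _) (hχ1 t)
    have hr : R₀ < rad (√(χ t) • e) := by
      rw [rad, hd _ hp.le]
      exact lt_of_le_of_lt (le_max_left _ 0) (Real.lt_sqrt_of_sq_lt (hχ1 t))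
    have hc : ContDiffAt ℝ ∞ (fun t => √(χ t) • e) t :=
      (hχ.contDiffAt.sqrt hp.ne').smul contDiffAt_const
    simp only [Matrix.trace, Matrix.diag_apply, Matrix.mul_apply]
    refine ContDiffAt.div_const (ContDiffAt.sum fun i _ => ContDiffAt.sum fun j _ => ?_) c
    exact ((hsm _ hr i j).comp t hc).mul contDiffAt_const
  refine ⟨_, _, _, fun x hx => ?_, key (blk S e 1 0 0) 1, key (blk S e 0 1 0) 7,
    key (blk S e 0 0 1) 8⟩
  have ht : R ^ 2 ≤ x ⬝ᵥ x := (Real.le_sqrt' hR).1 hx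
  have ht0 : 0 < x ⬝ᵥ x := lt_of_lt_of_le (pow_pos hR 2) ht
  have hs : √(x ⬝ᵥ x) ≠ 0 := (Real.sqrt_pos.2 ht0).ne'
  have hr : R ≤ rad (√(x ⬝ᵥ x) • e) := by
    rw [rad, hd _ ht0.le]
    exact hx
  obtain ⟨A, B, C, hM⟩ := schur hI hS (smul_ne_zero hs he0) (hsy _ hr) fun U hU e1 => by
    have := hinv U hU _ hr
    rwa [e1] at this
  obtain ⟨U, hU, e1⟩ := hT S (√(x ⬝ᵥ x) • e) x hS (hd _ ht0.le)
  have h1 := hinv U hU _ hr
  rw [e1, hM, blk_conj hG hS hU, e1] at h1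
  rw [blk_scale he0 hs] at hM
  simp only [hopf, hχ2 _ ht, hM, blk_mul hS he0, blk_trace hS he0]
  rw [h1]
  congr 1 <;> ring

end Vale.Agent.P366C
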