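import Vale.Agent.P366C.Stm
import Vale.Agent.P366S.Inv

/-! The normal form of an `Sp(m+1)`-invariant symmetric tensor on an exterior region. -/

namespace Vale.Agent.P366C

open scoped Matrix ContDiff Topology
open Filter Set Matrix
open Vale.Agent.P366 (Pt Ten IsQuat Hor dot_pos rad)
open Vale.Agent.P366S (M4 Ym blk hopf SpInv TransStmt hor_iff blk_trace blk_hor_mem Ym_smul)
open Vale.Agent.P366S.InvAux

namespace InvSpAux

variable {n : ℕ} {J : Fin 3 → Matrix (Fin n) (Fin n) ℝ}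

theorem ex_hor (hn : 4 < n) (hJ : IsQuat J) {e : Pt n} (e0 : e ≠ 0) :
    ∃ v : Pt n, Hor J e v ∧ v ⬝ᵥ v = 1 := by
  obtain ⟨u, hu⟩ : ∃ u : Pt n, blk J e 0 1 *ᵥ u ≠ 0 := by
    by_contra k
    have z : blk J e 0 1 = 0 := Matrix.ext_of_mulVec_single fun i => by
      rw [Matrix.zero_mulVec]
      exact by_contra fun k' => k ⟨_, k'⟩
    have h1 := blk_trace hJ e0 0 1
    have h2 : (4 : ℝ) < n := by exact_mod_cast hn
    rw [z, Matrix.trace_zero, Matrix.trace_zero] at h1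
    linarith
  have hz := blk_hor_mem hJ e0 u
  have p := dot_pos hu
  generalize blk J e 0 1 *ᵥ u = z at hz p
  refine ⟨(√(z ⬝ᵥ z))⁻¹ • z, by simpa using hor_comb hz hz (√(z ⬝ᵥ z))⁻¹ 0, ?_⟩
  rw [smul_dotProduct, dotProduct_smul, smul_eq_mul, smul_eq_mul, ← mul_assoc, ← mul_inv,
    Real.mul_self_sqrt p.le, inv_mul_cancel₀ p.ne']

theorem hor_loc (hT : TransStmt) (hJ : IsQuat J) {h : Ten n} {R : ℝ}
    (hs : ∀ x, R ≤ rad x → (h x)ᵀ = h x) (hI : Invt (spGroup J) h R) {x v : Pt n}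
    (hx : R ≤ rad x) (hv : Hor J x v) (v1 : v ⬝ᵥ v = 1) {a : Pt n} (ha : Hor J x a) :
    h x *ᵥ a = (v ⬝ᵥ (h x *ᵥ v)) • a := by
  classical
  have k := hor_eig (h := fun y => if R ≤ rad y then h y else 0) hT hJ
    (fun y => by
      split_ifs with hy
      exacts [hs y hy, Matrix.transpose_zero])
    (fun U h1 h2 y => by
      have e : rad (U *ᵥ y) = rad y := congrArg Real.sqrt (orth h1 y y)
      simp only [e]
      split_ifs with hy
      exacts [hI U ⟨h1, h2⟩ y hy, by rw [Matrix.mul_zero, Matrix.zero_mul]]) hv v1 ha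
  simpa only [if_pos hx] using k

end InvSpAux

open InvSpAux in
theorem invSp_pf (hT : P366S.TransStmt) (hC : CutStmt) : InvSpStmt := by
  intro n J h R₀ R hn hJ hR hR0 hc hs hI
  obtain ⟨e, e1⟩ : ∃ e : Pt n, e ⬝ᵥ e = 1 := ⟨Pi.single ⟨0, by omega⟩ 1, by simp⟩
  have e0 : e ≠ 0 := fun k => by simp [k] at e1
  obtain ⟨v, hv, v1⟩ := ex_hor hn hJ e0
  have m0 : 0 ≤ max R₀ 0 := le_max_right _ _
  obtain ⟨χ, c1, c2, c3⟩ := hC (max R₀ 0 ^ 2) (R ^ 2)
    (pow_lt_pow_left₀ (max_lt hR0 hR) m0 two_ne_zero)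
  have xx : ∀ t : ℝ, 0 ≤ t → (√t • e) ⬝ᵥ (√t • e) = t := fun t ht => by
    rw [smul_dotProduct, dotProduct_smul, e1, smul_eq_mul, smul_eq_mul, mul_one,
      Real.mul_self_sqrt ht]
  have xr : ∀ t : ℝ, 0 ≤ t → rad (√t • e) = √t := fun t ht => congrArg Real.sqrt (xx t ht)
  have hv' : ∀ t : ℝ, Hor J (√t • e) v := fun t => by
    rw [hor_iff] at hv ⊢
    rw [Ym_smul, Matrix.transpose_smul, Matrix.smul_mulVec, hv, smul_zero]
  have sm : ∀ i j, ContDiff ℝ ∞ (fun s : ℝ => h (√(χ s) • e) i j) := fun i j =>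
    contDiff_iff_contDiffAt.2 fun t => by
      have p : 0 < χ t := lt_of_le_of_lt (sq_nonneg _) (c2 t)
      have q : R₀ < rad (√(χ t) • e) := by
        rw [xr _ p.le]
        exact (le_max_left _ _).trans_lt ((Real.lt_sqrt m0).2 (c2 t))
      exact ContDiffAt.comp (g := fun y => h y i j) (f := fun s : ℝ => √(χ s) • e) t
        (hc _ q i j) ((c1.contDiffAt.sqrt p.ne').smul contDiffAt_const)
  have sm2 : ∀ a b, ContDiff ℝ ∞ fun s : ℝ => ((Ym J e)ᵀ * h (√(χ s) • e) * Ym J e) a b := by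
    intro a b
    simp only [Matrix.mul_apply]
    exact ContDiff.sum fun j _ =>
      (ContDiff.sum fun i _ => contDiff_const.mul (sm i j)).mul contDiff_const
  refine ⟨fun t => (1 / 2 : ℝ) • ((Ym J e)ᵀ * h (√(χ t) • e) * Ym J e +
      ((Ym J e)ᵀ * h (√(χ t) • e) * Ym J e)ᵀ), fun t => v ⬝ᵥ (h (√(χ t) • e) *ᵥ v),
    fun x hx => ?_, fun t => ?_, fun a b => ?_, ?_⟩
  · have t1 : R ^ 2 ≤ x ⬝ᵥ x := (Real.le_sqrt' hR).1 hx
    have t0 : 0 < x ⬝ᵥ x := lt_of_lt_of_le (by positivity) t1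
    have hy : R ≤ rad (√(x ⬝ᵥ x) • e) := by
      rw [xr _ t0.le]
      exact hx
    have q := eq_blk hJ (hs _ hy) (smul_ne_zero (Real.sqrt_pos.2 t0).ne' e0)
      fun a ha => hor_loc hT hJ hs hI hy (hv' _) v1 ha
    rw [xx _ t0.le, Ym_smul, Matrix.transpose_smul, Matrix.smul_mul, Matrix.smul_mul,
      Matrix.mul_smul, smul_smul, smul_smul, mul_assoc, Real.mul_self_sqrt t0.le,
      inv_mul_cancel₀ t0.ne', one_smul] at q
    obtain ⟨U, h1, h2, h3, -⟩ := hT n J (√(x ⬝ᵥ x) • e) x hJ (xx _ t0.le)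
    have k := hI U ⟨h1, h2⟩ _ hy
    rw [q, blk_U h1 h2, h3] at k
    unfold hopf
    simp only [c3 _ t1]
    rw [Matrix.transpose_mul, Matrix.transpose_mul, Matrix.transpose_transpose, hs _ hy,
      ← Matrix.mul_assoc, ← two_smul ℝ, smul_smul, one_div_mul_cancel two_ne_zero, one_smul]
    exact k
  · rw [Matrix.transpose_smul, Matrix.transpose_add, Matrix.transpose_transpose, add_comm]
  · simp only [Matrix.smul_apply, Matrix.add_apply, smul_eq_mul]
    exact contDiff_const.mul ((sm2 a b).add (sm2 b a))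
  · simp only [dotProduct, Matrix.mulVec]
    exact ContDiff.sum fun i _ =>
      contDiff_const.mul (ContDiff.sum fun j _ => (sm i j).mul contDiff_const)

end Vale.Agent.P366C
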