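import Vale.Agent.P366C.Stm

/-! The isotropy group of a point acts transitively on vertical and horizontal spheres. -/

namespace Vale.Agent.P366C

open scoped Matrix ContDiff Topology
open Matrix
open Vale.Agent.P366 (Pt dot_pos)
open Vale.Agent.P366N (IsCliff prL Hor Ver prL_x prL_mul prL_trace fierz quart_pf)

namespace IsoAux

theorem unit {z : Pt 16} (hz : z ≠ 0) : ((√(z ⬝ᵥ z))⁻¹ • z) ⬝ᵥ ((√(z ⬝ᵥ z))⁻¹ • z) = 1 := by
  have h := dot_pos hz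
  rw [smul_dotProduct, dotProduct_smul, smul_eq_mul, smul_eq_mul, ← mul_assoc, ← mul_inv,
    Real.mul_self_sqrt h.le, inv_mul_cancel₀ h.ne']

theorem perp {P : Matrix (Fin 16) (Fin 16) ℝ} (hP : P * P = P) (ht : P.trace = 8) (u v : Pt 16) :
    ∃ m : Pt 16, P *ᵥ m = m ∧ m ⬝ᵥ m = 1 ∧ m ⬝ᵥ u = 0 ∧ m ⬝ᵥ v = 0 := by
  have hI : IsIdempotentElem (Matrix.toLin' P) := by
    change Matrix.toLin' P ∘ₗ Matrix.toLin' P = _
    rw [← Matrix.toLin'_mul, hP]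
  have hp := (LinearMap.isProj_range_iff_isIdempotentElem _).2 hI
  have h1 := hp.trace
  rw [Matrix.trace_toLin'_eq, ht] at h1
  have h2 : Module.finrank ℝ (LinearMap.range (Matrix.toLin' P)) = 8 := by exact_mod_cast h1.symm
  let f : LinearMap.range (Matrix.toLin' P) →ₗ[ℝ] (Fin 2 → ℝ) :=
    (Matrix.toLin' (Matrix.of ![u, v])) ∘ₗ Submodule.subtype _
  have h3 : LinearMap.ker f ≠ ⊥ := LinearMap.ker_ne_bot_of_finrank_lt (by rw [h2]; simp)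
  obtain ⟨z, hz, hz0⟩ := Submodule.exists_mem_ne_zero_of_ne_bot h3
  have hz1 : (z : Pt 16) ≠ 0 := fun h => hz0 (Subtype.ext h)
  have e0 : u ⬝ᵥ (z : Pt 16) = 0 := congrFun (LinearMap.mem_ker.1 hz) 0
  have e1 : v ⬝ᵥ (z : Pt 16) = 0 := congrFun (LinearMap.mem_ker.1 hz) 1
  have e2 : P *ᵥ (z : Pt 16) = z := hp.map_id z z.2
  refine ⟨_, ?_, unit hz1, ?_, ?_⟩
  · rw [Matrix.mulVec_smul, e2]
  · rw [smul_dotProduct, dotProduct_comm _ u, e0, smul_zero]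
  · rw [smul_dotProduct, dotProduct_comm _ v, e1, smul_zero]

variable {S : Fin 9 → Matrix (Fin 16) (Fin 16) ℝ} {x : Pt 16}

theorem sum_dot (h : IsCliff S) (b : Fin 9 → ℝ) (u v : Pt 16) :
    ((∑ i, b i • S i) *ᵥ u) ⬝ᵥ v = u ⬝ᵥ ((∑ i, b i • S i) *ᵥ v) := by
  simp only [Matrix.sum_mulVec, Matrix.smul_mulVec, sum_dotProduct, dotProduct_sum,
    smul_dotProduct, dotProduct_smul, h.symm_dot]

theorem one (hG : GrpStmt) (h : IsCliff S) (hx : x ≠ 0) :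
    ∃ U ∈ spinGroup S, (∀ z, prL S x *ᵥ z = z → U *ᵥ z = z) ∧
      ∀ v, Hor S x v → U *ᵥ v = -v := by
  have ht := (dot_pos hx).ne'
  have e : ∑ i, ((x ⬝ᵥ x)⁻¹ * (x ⬝ᵥ (S i *ᵥ x))) • S i = (2 : ℝ) • prL S x - 1 := by
    simp only [prL, mul_smul, ← Finset.smul_sum]
    module
  refine ⟨_, (hG S h).2.2.1 (fun i => (x ⬝ᵥ x)⁻¹ * (x ⬝ᵥ (S i *ᵥ x))) ?_, fun z hz => ?_,
    fun v hv => ?_⟩
  · have q := quart_pf S x h
    have e2 : ∀ i, (x ⬝ᵥ x)⁻¹ * (x ⬝ᵥ (S i *ᵥ x)) * ((x ⬝ᵥ x)⁻¹ * (x ⬝ᵥ (S i *ᵥ x))) =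
        (x ⬝ᵥ x)⁻¹ ^ 2 * (x ⬝ᵥ (S i *ᵥ x)) ^ 2 := fun i => by ring
    change ∑ i, (x ⬝ᵥ x)⁻¹ * (x ⬝ᵥ (S i *ᵥ x)) * ((x ⬝ᵥ x)⁻¹ * (x ⬝ᵥ (S i *ᵥ x))) = 1
    simp only [e2]
    rw [← Finset.mul_sum, q]
    field_simp
  · rw [e, Matrix.sub_mulVec, Matrix.smul_mulVec, hz, Matrix.one_mulVec]
    module
  · rw [e, Matrix.sub_mulVec, Matrix.smul_mulVec, hv, Matrix.one_mulVec]
    module

theorem ver (hG : GrpStmt) (hT : TriStmt) (h : IsCliff S) (hx : x ≠ 0) {v w : Pt 16}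
    (hv : Ver S x v) (hw : Ver S x w) (e : v ⬝ᵥ v = w ⬝ᵥ w) :
    ∃ U ∈ spinGroup S, U *ᵥ x = x ∧ U *ᵥ v = w := by
  by_cases hvw : v - w = 0
  · exact ⟨1, (hG S h).1, Matrix.one_mulVec _, by rw [Matrix.one_mulVec, sub_eq_zero.1 hvw]⟩
  obtain ⟨m', h1, h2, h3, h4⟩ := perp (prL_mul h hx) (prL_trace h x) x v
  have hd := dot_pos hvw
  obtain ⟨U, hU, hz, -⟩ := hT S x ((√((v - w) ⬝ᵥ (v - w)))⁻¹ • (v - w)) m' h hx
    (by rw [Matrix.mulVec_smul, Matrix.mulVec_sub, hv.1, hw.1]) h1 (unit hvw) h2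
  refine ⟨U, hU, ?_, ?_⟩
  · have k : (v - w) ⬝ᵥ x = 0 := by
      rw [sub_dotProduct, dotProduct_comm v, dotProduct_comm w, hv.2, hw.2, sub_zero]
    rw [hz x (prL_x h hx), h3, mul_zero, zero_smul, sub_zero, smul_dotProduct, k, smul_zero,
      mul_zero, zero_smul, sub_zero]
  · have e1 : (v - w) ⬝ᵥ (v - w) = 2 * ((v - w) ⬝ᵥ v) := by
      simp only [sub_dotProduct, dotProduct_sub, e, dotProduct_comm w v]
      ring
    have e2 : 2 * ((√((v - w) ⬝ᵥ (v - w)))⁻¹ * ((v - w) ⬝ᵥ v)) * (√((v - w) ⬝ᵥ (v - w)))⁻¹ = 1 := by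
      have e3 := Real.mul_self_sqrt hd.le
      have e4 := (Real.sqrt_pos.2 hd).ne'
      field_simp
      linarith
    rw [hz v hv.1, h4, mul_zero, zero_smul, sub_zero, smul_dotProduct, smul_smul, smul_eq_mul, e2,
      one_smul, sub_sub_cancel]

theorem hor (hG : GrpStmt) (hT : TriStmt) (h : IsCliff S) (hx : x ≠ 0) {v w : Pt 16}
    (hv : Hor S x v) (hw : Hor S x w) (e : v ⬝ᵥ v = w ⬝ᵥ w) :
    ∃ U ∈ spinGroup S, U *ᵥ x = x ∧ U *ᵥ v = w := by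
  have ht := dot_pos hx
  by_cases hv0 : v = 0
  · have hw0 : w = 0 := by
      by_contra hw0
      have := dot_pos hw0
      rw [← e, hv0, dotProduct_zero] at this
      exact lt_irrefl _ this
    exact ⟨1, (hG S h).1, Matrix.one_mulVec _, by rw [Matrix.one_mulVec, hv0, hw0]⟩
  obtain ⟨μ, h1, h2, h3, h4⟩ := perp (P := 1 - prL S x)
    (by simp only [Matrix.sub_mul, Matrix.mul_sub, Matrix.one_mul, Matrix.mul_one, prL_mul h hx]
        abel)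
    (by rw [Matrix.trace_sub, prL_trace h, Matrix.trace_one]; norm_num) v w
  have hμ : Hor S x μ := by
    rw [Matrix.sub_mulVec, Matrix.one_mulVec] at h1
    exact sub_eq_self.1 h1
  have hxμ := hμ.x_dot h hx
  set b : Fin 9 → ℝ := fun i => (S i *ᵥ x) ⬝ᵥ μ with hb
  set B : Matrix (Fin 16) (Fin 16) ℝ := ∑ i, b i • S i with hB
  have hBx : B *ᵥ x = (x ⬝ᵥ x) • μ := by
    have k := congrArg (fun M => M *ᵥ μ) (fierz h hx)
    simp only [Matrix.sum_mulVec, Matrix.add_mulVec, Matrix.smul_mulVec, h1,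
      Matrix.vecMulVec_mulVec, op_smul_eq_smul, hxμ, zero_smul, zero_add] at k
    rw [← k, hB]
    simp only [Matrix.sum_mulVec, Matrix.smul_mulVec, hb]
  have hs : ∀ u u', (B *ᵥ u) ⬝ᵥ u' = u ⬝ᵥ (B *ᵥ u') := sum_dot h b
  have hab : ∑ i, b i * (x ⬝ᵥ (S i *ᵥ x)) = 0 := by
    have k : x ⬝ᵥ (B *ᵥ x) = 0 := by rw [hBx, dotProduct_smul, hxμ, smul_zero]
    rw [← k, hB]
    simp only [Matrix.sum_mulVec, Matrix.smul_mulVec, dotProduct_sum, dotProduct_smul, smul_eq_mul]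
  have hbb : ∑ i, b i * b i = x ⬝ᵥ x := by
    have k : (B *ᵥ x) ⬝ᵥ μ = x ⬝ᵥ x := by rw [hBx, smul_dotProduct, h2, smul_eq_mul, mul_one]
    rw [← k, hB]
    simp only [Matrix.sum_mulVec, Matrix.smul_mulVec, sum_dotProduct, smul_dotProduct, smul_eq_mul,
      hb]
  have hBB : ∀ u, B *ᵥ (B *ᵥ u) = (x ⬝ᵥ x) • u := fun u => by
    rw [Matrix.mulVec_mulVec, hB, h.sq, hbb, Matrix.smul_mulVec, Matrix.one_mulVec]
  have hL : ∀ u, Hor S x u → prL S x *ᵥ (B *ᵥ u) = B *ᵥ u := fun u hu => by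
    have k := congrArg (fun M => M *ᵥ u) (h.cl b fun i => x ⬝ᵥ (S i *ᵥ x))
    simp only [hab, mul_zero, zero_smul, Matrix.zero_mulVec, Matrix.add_mulVec,
      ← Matrix.mulVec_mulVec, ← hB] at k
    have k2 : (∑ i, (x ⬝ᵥ (S i *ᵥ x)) • S i) *ᵥ u = -((x ⬝ᵥ x) • u) := by
      have k3 : prL S x *ᵥ u = 0 := hu
      rw [prL, Matrix.smul_mulVec, Matrix.add_mulVec, Matrix.smul_mulVec, Matrix.one_mulVec,
        smul_eq_zero_iff_right (by norm_num)] at k3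
      have k4 := congrArg (fun z => (x ⬝ᵥ x) • z) k3
      simp only [smul_add, smul_smul, mul_inv_cancel₀ ht.ne', one_smul, smul_zero] at k4
      exact eq_neg_of_add_eq_zero_right k4
    rw [k2, Matrix.mulVec_neg, Matrix.mulVec_smul, neg_add_eq_zero] at k
    rw [prL, Matrix.smul_mulVec, Matrix.add_mulVec, Matrix.smul_mulVec, Matrix.one_mulVec, ← k,
      smul_smul, inv_mul_cancel₀ ht.ne', one_smul]
    module
  have hn : ∀ u, (B *ᵥ u) ⬝ᵥ (B *ᵥ u) = (x ⬝ᵥ x) * (u ⬝ᵥ u) := fun u => by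
    rw [hs, hBB, dotProduct_smul, smul_eq_mul]
  have hp : 0 < (x ⬝ᵥ x) * (v ⬝ᵥ v) := mul_pos ht (dot_pos hv0)
  have hne : ∀ u, u ⬝ᵥ u = v ⬝ᵥ v → B *ᵥ u ≠ 0 := fun u hu h0 => by
    rw [← hu, ← hn, h0, dotProduct_zero] at hp
    exact lt_irrefl _ hp
  have u1 := unit (hne v rfl)
  have u2 := unit (hne w e.symm)
  rw [hn] at u1
  rw [hn, ← e] at u2
  obtain ⟨U, hU, hz, hr⟩ := hT S x _ _ h hx (by rw [Matrix.mulVec_smul, hL w hw])
    (by rw [Matrix.mulVec_smul, hL v hv]) u2 u1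
  refine ⟨U, hU, ?_, ?_⟩
  · have k : ∀ u, μ ⬝ᵥ u = 0 → (B *ᵥ u) ⬝ᵥ x = 0 := fun u hu => by
      rw [hs, hBx, dotProduct_smul, dotProduct_comm u, hu, smul_zero]
    rw [hz x (prL_x h hx), smul_dotProduct, k v h3, smul_zero, mul_zero, zero_smul, sub_zero,
      smul_dotProduct, k w h4, smul_zero, mul_zero, zero_smul, sub_zero]
  · have k := hr b hab
    rw [← hB, Matrix.mulVec_smul, Matrix.mulVec_smul B, hBB, hBB, Matrix.mulVec_smul,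
      Matrix.mulVec_smul] at k
    exact smul_right_injective _ ht.ne'
      (smul_right_injective _ (inv_ne_zero (Real.sqrt_pos.2 hp).ne') k)

end IsoAux

open IsoAux in
theorem iso_pf (hG : GrpStmt) (hT : TriStmt) : IsoStmt := fun _ _ h hx =>
  ⟨one hG h hx, fun _ _ hv hw e => hor hG hT h hx hv hw e,
    fun _ _ hv hw e => ver hG hT h hx hv hw e⟩

end Vale.Agent.P366C
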