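import Vale.Agent.P366C.Stm

/-! `Spin(9)` acts transitively on the spheres of `ℝ^16`. -/

namespace Vale.Agent.P366C

open scoped Matrix ContDiff Topology
open Matrix
open Vale.Agent.P366 (Pt pr0 dot_pos)
open Vale.Agent.P366N (IsCliff prL lin quart_pf prL_x prL_mul prL_dot prL_trace pr0_mulVec
  pr0_trace)

namespace Trans9Aux

variable {S : Fin 9 → Matrix (Fin 16) (Fin 16) ℝ}

theorem nrm {n : ℕ} {d : Pt n} (hd : d ≠ 0) : ∃ t : ℝ, t * t * (d ⬝ᵥ d) = 1 := by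
  have h := dot_pos hd
  refine ⟨(√(d ⬝ᵥ d))⁻¹, ?_⟩
  rw [← mul_inv, Real.mul_self_sqrt h.le, inv_mul_cancel₀ h.ne']

theorem nrm_dot {n : ℕ} {d : Pt n} {t : ℝ} (h : t * t * (d ⬝ᵥ d) = 1) :
    (t • d) ⬝ᵥ (t • d) = 1 := by
  rw [smul_dotProduct, dotProduct_smul, smul_eq_mul, smul_eq_mul, ← mul_assoc, h]

theorem perp (a : Fin 9 → ℝ) : ∃ d : Fin 9 → ℝ, d ≠ 0 ∧ ∑ i, a i * d i = 0 := by
  by_cases h : a 0 = 0
  · refine ⟨Pi.single 0 1, fun h0 => ?_, ?_⟩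
    · have := congrFun h0 0
      simp at this
    · simp [Pi.single_apply, h]
  · refine ⟨Pi.single 1 (a 0) - Pi.single 0 (a 1), fun h0 => ?_, ?_⟩
    · have := congrFun h0 1
      simp at this
      exact h this
    · simp [Pi.single_apply, mul_sub, Finset.sum_sub_distrib, mul_comm]

theorem sum_smul' (t : ℝ) (d : Fin 9 → ℝ) : ∑ i, (t • d) i • S i = t • ∑ i, d i • S i := by
  simp only [Pi.smul_apply, smul_eq_mul, Finset.smul_sum, smul_smul]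

theorem swap (h : IsCliff S) {a a' : Fin 9 → ℝ} (ha : ∑ i, a i * a i = 1)
    (ha' : ∑ i, a' i * a' i = 1) : ∃ c : Fin 9 → ℝ, c ⬝ᵥ c = 1 ∧
      (∑ i, a' i • S i) * (∑ i, c i • S i) = (∑ i, c i • S i) * ∑ i, a i • S i := by
  have key : ∃ d : Fin 9 → ℝ, d ≠ 0 ∧
      (∑ i, a' i • S i) * (∑ i, d i • S i) = (∑ i, d i • S i) * ∑ i, a i • S i := by
    by_cases h0 : a + a' = 0
    · obtain ⟨d, hd, hp⟩ := perp a
      refine ⟨d, hd, ?_⟩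
      have e : a' = (-1 : ℝ) • a := by
        rw [neg_one_smul]
        exact eq_neg_of_add_eq_zero_right h0
      have e2 := h.cl a d
      rw [hp, mul_zero, zero_smul] at e2
      rw [e, sum_smul', neg_one_smul, Matrix.neg_mul]
      exact (eq_neg_of_add_eq_zero_right e2).symm
    · refine ⟨a + a', h0, ?_⟩
      have e : ∑ i, (a + a') i • S i = ∑ i, a i • S i + ∑ i, a' i • S i := by
        simp only [Pi.add_apply, add_smul, Finset.sum_add_distrib]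
      rw [e, Matrix.mul_add, Matrix.add_mul, h.sq, h.sq, ha, ha', add_comm]
  obtain ⟨d, hd, hk⟩ := key
  obtain ⟨t, ht⟩ := nrm hd
  refine ⟨t • d, nrm_dot ht, ?_⟩
  rw [sum_smul', Matrix.mul_smul, Matrix.smul_mul, hk]

theorem unit (h : IsCliff S) {x : Pt 16} (hx : x ≠ 0) : ∃ a : Fin 9 → ℝ, ∑ i, a i * a i = 1 ∧
    (∑ i, a i • S i) *ᵥ x = x ∧ prL S x = (1 / 2 : ℝ) • (1 + ∑ i, a i • S i) := by
  have hp := (dot_pos hx).ne'
  refine ⟨(x ⬝ᵥ x)⁻¹ • fun i => x ⬝ᵥ (S i *ᵥ x), ?_, ?_, ?_⟩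
  · have hq := quart_pf S x h
    have e : ∀ i ∈ Finset.univ, ((x ⬝ᵥ x)⁻¹ • fun i => x ⬝ᵥ (S i *ᵥ x)) i *
        ((x ⬝ᵥ x)⁻¹ • fun i => x ⬝ᵥ (S i *ᵥ x)) i =
        ((x ⬝ᵥ x)⁻¹) ^ 2 * (x ⬝ᵥ (S i *ᵥ x)) ^ 2 := fun i _ => by
      simp only [Pi.smul_apply, smul_eq_mul]
      ring
    rw [Finset.sum_congr rfl e, ← Finset.mul_sum, hq, ← mul_pow, inv_mul_cancel₀ hp, one_pow]
  · rw [sum_smul', smul_mulVec, lin h, smul_smul, inv_mul_cancel₀ hp, one_smul]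
  · rw [sum_smul', prL]

theorem ortho (h : IsCliff S) {x y : Pt 16} (hx : x ≠ 0) (hy : y ≠ 0) (hxy : prL S y *ᵥ x = x) :
    ∃ m : Pt 16, prL S y *ᵥ m = m ∧ m ⬝ᵥ m = 1 ∧ m ⬝ᵥ x = 0 := by
  have hp := (dot_pos hx).ne'
  have h1 : ∃ u, (prL S y - pr0 x) *ᵥ u ≠ 0 := by
    by_contra hc
    have h2 : prL S y - pr0 x = 0 :=
      ext_iff_mulVec.2 fun u => by rw [zero_mulVec]; exact not_not.1 fun h' => hc ⟨u, h'⟩
    have h3 := congrArg Matrix.trace h2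
    rw [trace_sub, prL_trace h, pr0_trace hx, trace_zero] at h3
    norm_num at h3
  obtain ⟨u, hu⟩ := h1
  obtain ⟨t, ht⟩ := nrm hu
  refine ⟨t • ((prL S y - pr0 x) *ᵥ u), ?_, nrm_dot ht, ?_⟩
  · rw [mulVec_smul, sub_mulVec, mulVec_sub, mulVec_mulVec, prL_mul h hy, pr0_mulVec, mulVec_smul,
      hxy]
  · rw [smul_dotProduct, sub_mulVec, sub_dotProduct, prL_dot h, hxy, pr0_mulVec, smul_dotProduct,
      smul_eq_mul (_ / _), div_mul_cancel₀ _ hp, dotProduct_comm u x, sub_self, smul_zero]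

end Trans9Aux

open Trans9Aux

theorem trans9_pf (hG : GrpStmt) (hT : TriStmt) : Trans9Stmt := by
  intro S x y h hxy
  obtain ⟨g1, g2, g3, -⟩ := hG S h
  by_cases hx : x = 0
  · refine ⟨1, g1, ?_⟩
    rw [hx, dotProduct_zero] at hxy
    rw [hx, mulVec_zero, dotProduct_self_eq_zero.1 hxy.symm]
  have hy : y ≠ 0 := fun h0 => hx (by
    rw [h0, dotProduct_zero] at hxy
    exact dotProduct_self_eq_zero.1 hxy)
  obtain ⟨a, a1, a2, -⟩ := unit h hx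
  obtain ⟨a', b1, -, b3⟩ := unit h hy
  obtain ⟨c, c1, c2⟩ := swap h a1 b1
  have hc := g3 c c1
  generalize ∑ i, c i • S i = V at c2 hc
  have e1 : prL S y *ᵥ (V *ᵥ x) = V *ᵥ x := by
    rw [b3, smul_mulVec, add_mulVec, one_mulVec, mulVec_mulVec, c2, ← mulVec_mulVec, a2]
    module
  have e2 : (V *ᵥ x) ⬝ᵥ (V *ᵥ x) = y ⬝ᵥ y := by
    rw [dotProduct_mulVec, ← mulVec_transpose, mulVec_mulVec, hc.1, one_mulVec, hxy]
  by_cases hv : V *ᵥ x = y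
  · exact ⟨V, hc, hv⟩
  have hx' : V *ᵥ x ≠ 0 := fun h0 => hy (by
    rw [h0, dotProduct_zero] at e2
    exact dotProduct_self_eq_zero.1 e2.symm)
  obtain ⟨m', m1, m2, m3⟩ := ortho h hx' hy e1
  obtain ⟨t, ht⟩ := nrm (sub_ne_zero.2 hv)
  obtain ⟨U, hU, hU1, -⟩ := hT S y (t • (V *ᵥ x - y)) m' h hy
    (by rw [mulVec_smul, mulVec_sub, e1, prL_x h hy]) m1 (nrm_dot ht) m2
  refine ⟨U * V, g2 U hU V hc, ?_⟩
  rw [← mulVec_mulVec, hU1 _ e1, m3, mul_zero, zero_smul, sub_zero, smul_smul]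
  have e3 : 2 * ((t • (V *ᵥ x - y)) ⬝ᵥ (V *ᵥ x)) * t = 1 := by
    rw [← ht]
    simp only [smul_dotProduct, sub_dotProduct, dotProduct_sub, smul_eq_mul, e2,
      dotProduct_comm (V *ᵥ x) y]
    ring
  rw [e3, one_smul, sub_sub_cancel]

end Vale.Agent.P366C
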