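import Vale.Agent.P366C.Stm

/-! Triality. -/

namespace Vale.Agent.P366C

open scoped Matrix ContDiff Topology
open Matrix
open Vale.Agent.P366 (Pt dot_pos)
open Vale.Agent.P366N (IsCliff prL fierz quart_pf)

namespace TriAux

/-- Clifford multiplication by a vector. -/
noncomputable def sg (S : Fin 9 → Matrix (Fin 16) (Fin 16) ℝ) (b : Fin 9 → ℝ) :
    Matrix (Fin 16) (Fin 16) ℝ := ∑ i, b i • S i

/-- Reflection. -/
noncomputable def rf (m z : Pt 16) : Pt 16 := z - (2 * (m ⬝ᵥ z)) • m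

variable {S : Fin 9 → Matrix (Fin 16) (Fin 16) ℝ} {a : Fin 9 → ℝ}

lemma sg_mv (b : Fin 9 → ℝ) (u : Pt 16) : sg S b *ᵥ u = ∑ i, b i • (S i *ᵥ u) := by
  simp only [sg, Matrix.sum_mulVec, Matrix.smul_mulVec]

lemma sg_single (i : Fin 9) : sg S (Pi.single i 1) = S i := by simp [sg, Pi.single_apply]

lemma sg_dot (h : IsCliff S) (b : Fin 9 → ℝ) (u v : Pt 16) :
    (sg S b *ᵥ u) ⬝ᵥ v = u ⬝ᵥ (sg S b *ᵥ v) := by
  simp only [sg_mv, sum_dotProduct, dotProduct_sum, smul_dotProduct, dotProduct_smul, h.symm_dot]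

lemma sg_anti (h : IsCliff S) (b c : Fin 9 → ℝ) (u : Pt 16) :
    sg S b *ᵥ (sg S c *ᵥ u) + sg S c *ᵥ (sg S b *ᵥ u) = (2 * (b ⬝ᵥ c)) • u := by
  have := congrArg (fun M => M *ᵥ u) (h.cl b c)
  simp only [Matrix.add_mulVec, ← Matrix.mulVec_mulVec, Matrix.smul_mulVec,
    Matrix.one_mulVec] at this
  exact this

lemma sg_cl (h : IsCliff S) (b c : Fin 9 → ℝ) (u v : Pt 16) :
    (sg S b *ᵥ u) ⬝ᵥ (sg S c *ᵥ v) + (sg S c *ᵥ u) ⬝ᵥ (sg S b *ᵥ v)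
      = 2 * (b ⬝ᵥ c) * (u ⬝ᵥ v) := by
  rw [sg_dot h, sg_dot h, ← dotProduct_add, sg_anti h, dotProduct_smul, smul_eq_mul]

lemma sg_same (h : IsCliff S) (b c : Fin 9 → ℝ) (m : Pt 16) :
    (sg S b *ᵥ m) ⬝ᵥ (sg S c *ᵥ m) = (b ⬝ᵥ c) * (m ⬝ᵥ m) := by
  have := sg_cl h b c m m
  rw [dotProduct_comm (sg S c *ᵥ m)] at this
  linarith

lemma sg_LL (h : IsCliff S) (b : Fin 9 → ℝ) {z w : Pt 16} (hz : sg S a *ᵥ z = z)
    (hw : sg S a *ᵥ w = w) : z ⬝ᵥ (sg S b *ᵥ w) = (b ⬝ᵥ a) * (z ⬝ᵥ w) := by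
  have := sg_cl h b a z w
  rw [hz, hw, sg_dot h] at this
  linarith

lemma sg_HH (h : IsCliff S) (b : Fin 9 → ℝ) {z w : Pt 16} (hz : sg S a *ᵥ z = -z)
    (hw : sg S a *ᵥ w = -w) : z ⬝ᵥ (sg S b *ᵥ w) = -((b ⬝ᵥ a) * (z ⬝ᵥ w)) := by
  have := sg_cl h b a z w
  rw [hz, hw, dotProduct_neg, neg_dotProduct, sg_dot h] at this
  linarith

lemma dot_LH (h : IsCliff S) {z v : Pt 16} (hz : sg S a *ᵥ z = z) (hv : sg S a *ᵥ v = -v) :
    z ⬝ᵥ v = 0 := by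
  have := sg_dot h a z v
  rw [hz, hv, dotProduct_neg] at this
  linarith

lemma sg_H (h : IsCliff S) {b : Fin 9 → ℝ} (hb : b ⬝ᵥ a = 0) {z : Pt 16} (hz : sg S a *ᵥ z = z) :
    sg S a *ᵥ (sg S b *ᵥ z) = -(sg S b *ᵥ z) := by
  have := sg_anti h b a z
  rw [hz, hb, mul_zero, zero_smul] at this
  exact eq_neg_of_add_eq_zero_right this

lemma rf_L {m z : Pt 16} (hm : sg S a *ᵥ m = m) (hz : sg S a *ᵥ z = z) :
    sg S a *ᵥ rf m z = rf m z := by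
  rw [rf, Matrix.mulVec_sub, Matrix.mulVec_smul, hm, hz]

lemma rf_dot {m : Pt 16} (hm : m ⬝ᵥ m = 1) (z w : Pt 16) : rf m z ⬝ᵥ rf m w = z ⬝ᵥ w := by
  simp only [rf, sub_dotProduct, dotProduct_sub, smul_dotProduct, dotProduct_smul, smul_eq_mul, hm,
    dotProduct_comm z m]
  ring

lemma key (h : IsCliff S) {m : Pt 16} (hm : m ⬝ᵥ m = 1) (c e : Fin 9 → ℝ) (z : Pt 16) :
    (sg S c *ᵥ rf m z) ⬝ᵥ (sg S e *ᵥ m) = -((sg S e *ᵥ z) ⬝ᵥ (sg S c *ᵥ m)) := by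
  have := sg_cl h c e z m
  rw [rf, Matrix.mulVec_sub, Matrix.mulVec_smul, sub_dotProduct, smul_dotProduct, sg_same h, hm,
    smul_eq_mul, dotProduct_comm m z]
  linarith

lemma span (h : IsCliff S) {m v : Pt 16} (hm : sg S a *ᵥ m = m) (h1 : m ⬝ᵥ m = 1)
    (hv : sg S a *ᵥ v = -v) : ∃ b : Fin 9 → ℝ, b ⬝ᵥ a = 0 ∧ sg S b *ᵥ m = v := by
  have hm0 : m ≠ 0 := fun e => by simp [e] at h1
  have hs : ∀ i, m ⬝ᵥ (S i *ᵥ m) = a i := fun i => by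
    rw [← sg_single (S := S) i, sg_LL h _ hm hm, h1]; simp
  have hP : prL S m *ᵥ v = 0 := by
    simp only [prL, hs, h1, inv_one, one_smul, Matrix.smul_mulVec, Matrix.add_mulVec,
      Matrix.one_mulVec]
    rw [show (∑ i, a i • S i) *ᵥ v = -v from hv]; simp
  refine ⟨fun i => (S i *ᵥ m) ⬝ᵥ v, ?_, ?_⟩
  · have : (fun i => (S i *ᵥ m) ⬝ᵥ v) ⬝ᵥ a = (sg S a *ᵥ m) ⬝ᵥ v := by
      rw [sg_mv, sum_dotProduct]
      exact Finset.sum_congr rfl fun i _ => by rw [smul_dotProduct, smul_eq_mul, mul_comm]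
    rw [this, hm, dot_LH h hm hv]
  · have := congrArg (fun M => M *ᵥ v) (fierz h hm0)
    simp only [Matrix.sum_mulVec, vecMulVec_mulVec, op_smul_eq_smul, Matrix.add_mulVec,
      Matrix.smul_mulVec, Matrix.sub_mulVec, Matrix.one_mulVec, hP, h1, dot_LH h hm hv] at this
    rw [sg_mv, this]; simp

lemma dec (h : IsCliff S) (ha : a ⬝ᵥ a = 1) {m : Pt 16} (hm : sg S a *ᵥ m = m) (h1 : m ⬝ᵥ m = 1)
    (u : Pt 16) : ∃ z e, sg S a *ᵥ z = z ∧ e ⬝ᵥ a = 0 ∧ u = z + sg S e *ᵥ m := by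
  have e2 : sg S a *ᵥ (sg S a *ᵥ u) = u := by
    have := sg_anti h a a u
    rw [ha, mul_one, two_smul, ← two_smul ℝ, ← two_smul ℝ] at this
    exact smul_right_injective _ two_ne_zero this
  obtain ⟨b, hb, e⟩ := span (v := (1 / 2 : ℝ) • (u - sg S a *ᵥ u)) h hm h1 (by
    rw [Matrix.mulVec_smul, Matrix.mulVec_sub, e2]; module)
  refine ⟨(1 / 2 : ℝ) • (u + sg S a *ᵥ u), b, ?_, hb, ?_⟩
  · rw [Matrix.mulVec_smul, Matrix.mulVec_add, e2, add_comm]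
  · rw [e]; module

lemma ext_dot {A B : Matrix (Fin 16) (Fin 16) ℝ}
    (h : ∀ u v : Pt 16, u ⬝ᵥ (A *ᵥ v) = u ⬝ᵥ (B *ᵥ v)) : A = B := by
  ext i j
  simpa using h (Pi.single i 1) (Pi.single j 1)

lemma conj_dot (U A : Matrix (Fin 16) (Fin 16) ℝ) (u v : Pt 16) :
    u ⬝ᵥ ((Uᵀ * A * U) *ᵥ v) = (U *ᵥ u) ⬝ᵥ (A *ᵥ (U *ᵥ v)) := by
  rw [← Matrix.mulVec_mulVec, ← Matrix.mulVec_mulVec, Matrix.dotProduct_mulVec,
    Matrix.vecMul_transpose]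

lemma core (h : IsCliff S) (ha : a ⬝ᵥ a = 1) {m m' : Pt 16} (hm : sg S a *ᵥ m = m)
    (hm' : sg S a *ᵥ m' = m') (h1 : m ⬝ᵥ m = 1) (h1' : m' ⬝ᵥ m' = 1) :
    ∃ U ∈ spinGroup S, (∀ z, sg S a *ᵥ z = z → U *ᵥ z = rf m (rf m' z)) ∧
      ∀ b : Fin 9 → ℝ, b ⬝ᵥ a = 0 → U *ᵥ (sg S b *ᵥ m') = sg S b *ᵥ m := by
  obtain ⟨U, hU⟩ : ∃ U : Matrix (Fin 16) (Fin 16) ℝ, ∀ u, U *ᵥ u =
      rf m (rf m' ((1 / 2 : ℝ) • (u + sg S a *ᵥ u)))
        + sg S (fun i => (S i *ᵥ m') ⬝ᵥ u) *ᵥ m - (m' ⬝ᵥ u) • m := by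
    have hr : ∀ p u : Pt 16, (1 - (2 : ℝ) • vecMulVec p p) *ᵥ u = rf p u := fun p u => by
      rw [Matrix.sub_mulVec, Matrix.one_mulVec, Matrix.smul_mulVec, vecMulVec_mulVec,
        op_smul_eq_smul, smul_smul, rf]
    refine ⟨(1 - (2 : ℝ) • vecMulVec m m) * ((1 - (2 : ℝ) • vecMulVec m' m') *
      ((1 / 2 : ℝ) • (1 + sg S a))) + ∑ i, vecMulVec (S i *ᵥ m) (S i *ᵥ m') - vecMulVec m m',
      fun u => ?_⟩
    rw [Matrix.sub_mulVec, Matrix.add_mulVec, ← Matrix.mulVec_mulVec, ← Matrix.mulVec_mulVec,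
      hr, hr, Matrix.smul_mulVec, Matrix.add_mulVec, Matrix.one_mulVec, Matrix.sum_mulVec,
      sg_mv (fun i => (S i *ᵥ m') ⬝ᵥ u)]
    simp only [vecMulVec_mulVec, op_smul_eq_smul]
  have uL : ∀ z, sg S a *ᵥ z = z → U *ᵥ z = rf m (rf m' z) := by
    intro z hz
    have e : (fun i => (S i *ᵥ m') ⬝ᵥ z) = (m' ⬝ᵥ z) • a := funext fun i => by
      rw [h.symm_dot, ← sg_single (S := S) i, sg_LL h _ hm' hz]; simp [mul_comm]
    have e2 : sg S ((m' ⬝ᵥ z) • a) *ᵥ m = (m' ⬝ᵥ z) • m := by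
      conv_rhs => rw [← hm]
      simp only [sg_mv, Finset.smul_sum, smul_smul, Pi.smul_apply, smul_eq_mul]
    rw [hU, hz, e, e2, show (1 / 2 : ℝ) • (z + z) = z by module, add_sub_cancel_right]
  have uH : ∀ b : Fin 9 → ℝ, b ⬝ᵥ a = 0 → U *ᵥ (sg S b *ᵥ m') = sg S b *ᵥ m := by
    intro b hb
    have e : (fun i => (S i *ᵥ m') ⬝ᵥ (sg S b *ᵥ m')) = b := funext fun i => by
      rw [← sg_single (S := S) i, sg_same h, h1']; simp
    rw [hU, sg_H h hb hm', e, dot_LH h hm' (sg_H h hb hm')]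
    simp [rf]
  have uD : ∀ z e, sg S a *ᵥ z = z → e ⬝ᵥ a = 0 →
      U *ᵥ (z + sg S e *ᵥ m') = rf m (rf m' z) + sg S e *ᵥ m := fun z e hz he => by
    rw [Matrix.mulVec_add, uL z hz, uH e he]
  have rL : ∀ z, sg S a *ᵥ z = z → sg S a *ᵥ rf m (rf m' z) = rf m (rf m' z) :=
    fun z hz => rf_L hm (rf_L hm' hz)
  have o1 : Uᵀ * U = 1 := by
    rw [← Matrix.mul_one Uᵀ]
    refine ext_dot fun u v => ?_
    obtain ⟨z, e, hz, he, rfl⟩ := dec h ha hm' h1' u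
    obtain ⟨w, f, hw, hf, rfl⟩ := dec h ha hm' h1' v
    rw [conj_dot, uD z e hz he, uD w f hw hf]
    simp only [Matrix.one_mulVec, add_dotProduct, dotProduct_add, sg_same h, h1, h1',
      rf_dot h1, rf_dot h1', dotProduct_comm (sg S e *ᵥ _) w,
      dotProduct_comm (sg S e *ᵥ _) (rf m _), dot_LH h (rL z hz) (sg_H h hf hm),
      dot_LH h (rL w hw) (sg_H h he hm), dot_LH h hz (sg_H h hf hm'),
      dot_LH h hw (sg_H h he hm')]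
  have o2 : U * Uᵀ = 1 := mul_eq_one_comm.1 o1
  have cj : ∀ b c, Uᵀ * sg S c * U = sg S b → U * sg S b * Uᵀ = sg S c := fun b c e => by
    rw [← e, ← Matrix.mul_assoc, ← Matrix.mul_assoc, o2, Matrix.one_mul, Matrix.mul_assoc, o2,
      Matrix.mul_one]
  have nA : Uᵀ * sg S a * U = sg S a := by
    refine ext_dot fun u v => ?_
    obtain ⟨w, f, hw, hf, rfl⟩ := dec h ha hm' h1' v
    have e1 : sg S a *ᵥ (U *ᵥ (w + sg S f *ᵥ m')) = U *ᵥ (sg S a *ᵥ (w + sg S f *ᵥ m')) := by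
      rw [uD w f hw hf, Matrix.mulVec_add, Matrix.mulVec_add, rL w hw, sg_H h hf hm, hw,
        sg_H h hf hm', Matrix.mulVec_add, Matrix.mulVec_neg, uL w hw, uH f hf]
    rw [conj_dot, e1, ← Matrix.one_mulVec (U *ᵥ (sg S a *ᵥ _)), ← conj_dot, Matrix.mul_one, o1,
      Matrix.one_mulVec]
  have nB : ∀ b, b ⬝ᵥ a = 0 → ∃ c, Uᵀ * sg S c * U = sg S b := by
    intro b hb
    obtain ⟨c, hc, ec⟩ := span h hm h1 (sg_H h hb hm')
    have cr : ∀ z e, (sg S c *ᵥ rf m (rf m' z)) ⬝ᵥ (sg S e *ᵥ m)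
        = (sg S b *ᵥ z) ⬝ᵥ (sg S e *ᵥ m') := fun z e => by
      rw [key h h1, ec, key h h1', neg_neg]
    refine ⟨c, ext_dot fun u v => ?_⟩
    obtain ⟨z, e, hz, he, rfl⟩ := dec h ha hm' h1' u
    obtain ⟨w, f, hw, hf, rfl⟩ := dec h ha hm' h1' v
    rw [conj_dot, uD z e hz he, uD w f hw hf]
    simp only [Matrix.mulVec_add, add_dotProduct, dotProduct_add]
    rw [sg_LL h c (rL z hz) (rL w hw), sg_LL h b hz hw, sg_HH h c (sg_H h he hm) (sg_H h hf hm),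
      sg_HH h b (sg_H h he hm') (sg_H h hf hm'), hb, hc, ← sg_dot h c (rf m _), cr,
      dotProduct_comm (sg S e *ᵥ m), cr, dotProduct_comm (sg S e *ᵥ m'), ← sg_dot h b z]
    ring
  refine ⟨U, ⟨o1, fun i => ?_⟩, uL, uH⟩
  obtain ⟨c, hc⟩ := nB (Pi.single i 1 - a i • a) (by simp [sub_dotProduct, ha])
  have e : S i = a i • sg S a + sg S (Pi.single i 1 - a i • a) := by
    conv_lhs => rw [← sg_single (S := S) i]
    simp only [sg, Pi.sub_apply, Pi.smul_apply, smul_eq_mul, sub_smul, Finset.sum_sub_distrib,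
      Finset.smul_sum, smul_smul]
    abel
  refine ⟨a i • a + c, ?_⟩
  rw [e, Matrix.mul_add, Matrix.add_mul, Matrix.mul_smul, Matrix.smul_mul, cj _ _ nA, cj _ _ hc]
  simp only [sg, Pi.add_apply, Pi.smul_apply, smul_eq_mul, add_smul, Finset.sum_add_distrib,
    Finset.smul_sum, smul_smul]

end TriAux

open TriAux in
theorem tri_pf : TriStmt := by
  intro S x m m' h hx hm hm' h1 h1'
  have hp := (dot_pos hx).ne'
  set a : Fin 9 → ℝ := fun i => (x ⬝ᵥ x)⁻¹ * (x ⬝ᵥ (S i *ᵥ x)) with ha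
  have hP : ∀ z, prL S x *ᵥ z = z → sg S a *ᵥ z = z := by
    intro z hz
    have e : prL S x *ᵥ z = (1 / 2 : ℝ) • (z + sg S a *ᵥ z) := by
      simp only [prL, sg, ha, Matrix.smul_mulVec, Matrix.add_mulVec, Matrix.one_mulVec,
        Finset.smul_sum, smul_smul]
    rw [e] at hz
    have : sg S a *ᵥ z = (2 : ℝ) • ((1 / 2 : ℝ) • (z + sg S a *ᵥ z)) - z := by module
    rw [this, hz]; module
  have haa : a ⬝ᵥ a = 1 := by
    have q := quart_pf S x h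
    have : a ⬝ᵥ a = (x ⬝ᵥ x)⁻¹ ^ 2 * ∑ i, (x ⬝ᵥ (S i *ᵥ x)) ^ 2 := by
      rw [Finset.mul_sum]
      exact Finset.sum_congr rfl fun i _ => by simp only [ha]; ring
    rw [this, q]; field_simp
  obtain ⟨U, hU, uL, uH⟩ := core h haa (hP m hm) (hP m' hm') h1 h1'
  refine ⟨U, hU, fun z hz => uL z (hP z hz), fun b hb => uH b ?_⟩
  have : b ⬝ᵥ a = (x ⬝ᵥ x)⁻¹ * ∑ i, b i * (x ⬝ᵥ (S i *ᵥ x)) := by
    rw [Finset.mul_sum]
    exact Finset.sum_congr rfl fun i _ => by simp only [ha]; ring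
  rw [this, hb, mul_zero]

end Vale.Agent.P366C
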