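import Vale.Agent.P366C.MainS
import Vale.Agent.P366C.Congr
import Vale.Agent.P366C.InvSp
import Vale.Agent.P366C.Grp
import Vale.Agent.P366C.Tri
import Vale.Agent.P366C.Iso
import Vale.Agent.P366C.Trans9
import Vale.Agent.P366C.Inv9
import Vale.Agent.P366.Cont
import Vale.Agent.P366.GenR
import Vale.Agent.P366.Jet
import Vale.Agent.P366.Sph
import Vale.Agent.P366N.Ode
import Vale.Agent.P366N.Mono
import Vale.Agent.P366N.MonoAlg
import Vale.Agent.P366N.Lim
import Vale.Agent.P366N.EvPos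
import Vale.Agent.P366N.Scal
import Vale.Agent.P366N.Jet
import Vale.Agent.P366N.Chr
import Vale.Agent.P366N.VW
import Vale.Agent.P366N.Q
import Vale.Agent.P366N.KH
import Vale.Agent.P366N.GxDiv
import Vale.Agent.P366N.Cur
import Vale.Agent.P366N.Det
import Vale.Agent.P366N.Flux
import Vale.Agent.P366N.Decay
import Vale.Agent.P366N.Bm
import Vale.Agent.P366N.TmV
import Vale.Agent.P366S.AlgJ
import Vale.Agent.P366S.AlgK
import Vale.Agent.P366S.AlgR
import Vale.Agent.P366S.Chr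
import Vale.Agent.P366S.Cur
import Vale.Agent.P366S.Dec
import Vale.Agent.P366S.Decay
import Vale.Agent.P366S.Det
import Vale.Agent.P366S.EvPos
import Vale.Agent.P366S.Flux
import Vale.Agent.P366S.GxDiv
import Vale.Agent.P366S.H
import Vale.Agent.P366S.Hh
import Vale.Agent.P366S.Jac
import Vale.Agent.P366S.Jet
import Vale.Agent.P366S.KeyDiag
import Vale.Agent.P366S.Lim
import Vale.Agent.P366S.M2S
import Vale.Agent.P366S.Mono
import Vale.Agent.P366S.MonoAbs
import Vale.Agent.P366S.Ode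
import Vale.Agent.P366S.Q
import Vale.Agent.P366S.RotB
import Vale.Agent.P366S.Scal
import Vale.Agent.P366S.TmV
import Vale.Agent.P366S.Trans
import Vale.Agent.P366S.V0
import Vale.Agent.P366S.VW

/-! The two cohomogeneity one theorems. -/

namespace Vale.Agent.P366C

open Vale.Agent.P366 (IsQuat cont_pf genR_pf rad_pf sph_pf)

open Vale.Agent.P366N in
theorem penrose_spin (S : Fin 9 → Matrix (Fin 16) (Fin 16) ℝ) (hS : IsCliff S) :
    PenroseFor (spinGroup S) :=
  have hT := tm_pf bm_pf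
  have hc := chr_pf jet_pf
  spin_of (ode_pf (mono_pf monoAlg_pf) cont_pf lim_pf evPos_pf)
    (scal_pf genR_pf smooth_pf rad_pf hc (v_pf hT) (w_pf hT) (q_pf hT)) k_pf
    (h_pf hc (v_pf hT) (gx_pf bm_pf hT))
    (cur_pf jet_pf k_pf hc (v_pf hT) (gx_pf bm_pf hT) (div_pf bm_pf)) cs_pf
    (flux_pf sph_pf jet_pf k_pf (div_pf bm_pf) det_pf) (decay_pf jet_pf (div_pf bm_pf)) smooth_pf
    congr_pf (inv9_pf grp_pf (iso_pf grp_pf tri_pf) (trans9_pf grp_pf tri_pf) cut_pf) S hS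

open Vale.Agent.P366S in
theorem penrose_sp (n : ℕ) (hn : 4 < n) (J : Fin 3 → Matrix (Fin n) (Fin n) ℝ) (hJ : IsQuat J) :
    PenroseFor (spGroup J) :=
  have hc := chr_pf jet_pf
  have hH := hh_pf jac_pf
  sp_of (ode_pf (mono_pf monoAbs_pf hj_pf) cont_pf lim_pf evPos_pf) k_pf
    (h_pf hc tm_pf (v_pf tm_pf) v0_pf hH)
    (dec_pf (scal_pf genR_pf smooth_pf rad_pf radY_pf hc (v_pf tm_pf) (w_pf tm_pf v0_pf)
      (q_pf tm_pf) v0_pf jac_pf hH) k_pf
      (cur_pf jet_pf k_pf hc tm_pf (v_pf tm_pf) div_pf jac_pf) cs_pf pos_pf)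
    (keyDiag_pf algR_pf (algJ_pf v0_pf) algK_pf hH jac_pf (reg_pf jac_pf)) rotB_pf (reg_pf jac_pf)
    pos_pf (m2s_pf jac_pf) (flux_pf sph_pf sphOdd_pf jet_pf div_pf det_pf hH jac_pf)
    (decay_pf jet_pf div_pf) smooth_pf congr_pf (invSp_pf trans_pf cut_pf) n hn J hJ

end Vale.Agent.P366C
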