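import Vale.Agent.P366.Defs

/-! Exteriors in coordinates, symmetry groups acting transitively on spheres. -/

namespace Vale.Agent.P366C

open scoped Matrix ContDiff Topology
open Vale.Agent.P366 Filter

variable {n : ℕ}

/-- `(g, K)` is an asymptotically flat initial data set on `{|x| ≥ R}`, smooth up to the boundary,
with decay order `τ > (n-2)/2`. -/
def Exterior (g K : Ten n) (R : ℝ) : Prop :=
  0 < R ∧
  (∃ R₀ < R, ∀ x, R₀ < rad x → ∀ i j,
    ContDiffAt ℝ ∞ (fun y => g y i j) x ∧ ContDiffAt ℝ ∞ (fun y => K y i j) x) ∧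
  (∀ x, R ≤ rad x → (g x).PosDef ∧ (K x)ᵀ = K x) ∧
  ∃ τ, ((n : ℝ) - 2) / 2 < τ ∧ Decay g K R τ

/-- The tensor `h` on `{|x| ≥ R}` is invariant under the set `G` of orthogonal matrices. -/
def Invt (G : Set (Matrix (Fin n) (Fin n) ℝ)) (h : Ten n) (R : ℝ) : Prop :=
  ∀ U ∈ G, ∀ x, R ≤ rad x → h (U *ᵥ x) = U * h x * Uᵀ

/-- The spacetime Penrose inequality for all `G`-invariant exteriors. -/
def PenroseFor (G : Set (Matrix (Fin n) (Fin n) ℝ)) : Prop :=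
  ∀ (g K : Ten n) (R E : ℝ) (P : Pt n), Exterior g K R → Invt G g R → Invt G K R →
    (∀ x, R ≤ rad x → curNorm g K x ≤ mu g K x) →
    (∀ x, rad x = R → meanCurv g x + trS g K x ≤ 0) →
    Tendsto (energyFlux g) atTop (𝓝 E) → (∀ i, Tendsto (momFlux g K i) atTop (𝓝 (P i))) →
    rad P ≤ E ∧ ∃ r, R ≤ r ∧
      1 / 2 * (area g r / omega n) ^ (((n : ℝ) - 2) / ((n : ℝ) - 1)) ≤ √(E ^ 2 - rad P ^ 2)

/-- `Sp(m+1)`: orthogonal matrices commuting with the quaternionic structure. -/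
def spGroup (J : Fin 3 → Matrix (Fin n) (Fin n) ℝ) : Set (Matrix (Fin n) (Fin n) ℝ) :=
  {U | Uᵀ * U = 1 ∧ ∀ a, U * J a = J a * U}

/-- `Spin(9)`: orthogonal matrices of `ℝ^16` normalising the span of the nine involutions. -/
def spinGroup (S : Fin 9 → Matrix (Fin 16) (Fin 16) ℝ) : Set (Matrix (Fin 16) (Fin 16) ℝ) :=
  {U | Uᵀ * U = 1 ∧ ∀ i, ∃ a : Fin 9 → ℝ, U * S i * Uᵀ = ∑ j, a j • S j}

end Vale.Agent.P366C
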