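import Vale.Agent.P366N.Defs

/-! Nine symmetric anticommuting involutions of size sixteen. -/

namespace Vale.Agent.P366C

open Matrix

/-- the permutations -/
def exP (i : Fin 9) (a : Fin 16) : Fin 16 :=
  Fin.ofNat 16 (a.val ^^^ (![13, 12, 14, 10, 11, 9, 15, 8, 0] : Fin 9 → ℕ) i)

/-- parity of a four bit number as a sign -/
def exSg (m : ℕ) : ℤ := if (m + m / 2 + m / 4 + m / 8) % 2 = 0 then 1 else -1

/-- the signs -/
def exS (i : Fin 9) (a : Fin 16) : ℤ :=
  exSg (a.val &&& (![12, 13, 10, 14, 9, 11, 15, 0, 8] : Fin 9 → ℕ) i)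

/-- signed permutation matrix -/
def exM (p : Fin 16 → Fin 16) (s : Fin 16 → ℤ) : Matrix (Fin 16) (Fin 16) ℝ :=
  Matrix.of fun a b => if b = p a then (s a : ℝ) else 0

theorem exM_mul (p q : Fin 16 → Fin 16) (s t : Fin 16 → ℤ) :
    exM p s * exM q t = exM (fun a => q (p a)) fun a => s a * t (p a) := by
  ext a b
  simp only [exM, mul_apply, of_apply, ite_mul, zero_mul, Finset.sum_ite_eq', Finset.mem_univ,
    if_true]
  simp only [mul_ite, mul_zero, Int.cast_mul]

theorem ex1 : ∀ i a, exP i (exP i a) = a ∧ exS i (exP i a) = exS i a ∧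
    exS i a * exS i (exP i a) = 1 := by decide +kernel

theorem ex2 : ∀ i j a, i ≠ j → exP j (exP i a) = exP i (exP j a) ∧
    exS i a * exS j (exP i a) = -(exS j a * exS i (exP j a)) := by decide +kernel

theorem exCliff_pf : ∃ S : Fin 9 → Matrix (Fin 16) (Fin 16) ℝ, Vale.Agent.P366N.IsCliff S := by
  refine ⟨fun i => exM (exP i) (exS i), fun i => ?_, fun i => ?_, fun i j h => ?_⟩
  · ext a b
    simp only [exM, transpose_apply, of_apply]
    by_cases e : b = exP i a
    · rw [if_pos e, if_pos (by rw [e, (ex1 i a).1]), e, (ex1 i a).2.1]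
    · rw [if_neg e, if_neg fun e' => e (by rw [e', (ex1 i b).1])]
  · rw [exM_mul]
    ext a b
    simp only [exM, of_apply, (ex1 i a).1, (ex1 i a).2.2, one_apply, eq_comm, Int.cast_one]
  · rw [exM_mul, exM_mul]
    ext a b
    simp only [exM, of_apply, Matrix.neg_apply, (ex2 i j a h).1, (ex2 i j a h).2, Int.cast_neg]
    split_ifs <;> simp

end Vale.Agent.P366C
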