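import Vale.Agent.P366C.Stm

/-! Existence of a quaternionic structure in dimension `4 m`. -/

namespace Vale.Agent.P366C

open scoped Matrix Kronecker
open Matrix

namespace ExQuatAux

/-- Left multiplication by the three imaginary units. -/
def LL : Fin 3 → Matrix (Fin 4) (Fin 4) ℝ :=
  ![!![0, -1, 0, 0; 1, 0, 0, 0; 0, 0, 0, -1; 0, 0, 1, 0],
    !![0, 0, -1, 0; 0, 0, 0, 1; 1, 0, 0, 0; 0, -1, 0, 0],
    !![0, 0, 0, -1; 0, 0, -1, 0; 0, 1, 0, 0; 1, 0, 0, 0]]

theorem LL_T (a : Fin 3) : (LL a)ᵀ = (-1 : ℝ) • LL a := by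
  ext i j
  fin_cases a <;> fin_cases i <;> fin_cases j <;> simp [LL]

theorem LL_sq (a : Fin 3) : LL a * LL a = (-1 : ℝ) • 1 := by
  ext i j
  fin_cases a <;> fin_cases i <;> fin_cases j <;> simp [LL, Matrix.mul_apply, Fin.sum_univ_four]

theorem LL_mul : LL 0 * LL 1 = LL 2 := by
  ext i j
  fin_cases i <;> fin_cases j <;> simp [LL, Matrix.mul_apply, Fin.sum_univ_four]

end ExQuatAux

open ExQuatAux in
theorem exQuat_pf (m : ℕ) :
    ∃ J : Fin 3 → Matrix (Fin (4 * m)) (Fin (4 * m)) ℝ, Vale.Agent.P366.IsQuat J := by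
  let e : Fin (4 * m) ≃ Fin 4 × Fin m := finProdFinEquiv.symm
  refine ⟨fun a => (LL a ⊗ₖ (1 : Matrix (Fin m) (Fin m) ℝ)).submatrix e e, fun a => ?_,
    fun a => ?_, ?_⟩
  · rw [transpose_submatrix, ← kroneckerMap_transpose, LL_T, transpose_one, smul_kronecker,
      neg_one_smul]
    rfl
  · rw [submatrix_mul_equiv, ← mul_kronecker_mul, LL_sq, Matrix.mul_one, smul_kronecker,
      one_kronecker_one, neg_one_smul, ← submatrix_one_equiv e]
    rfl
  · simp only [submatrix_mul_equiv, ← mul_kronecker_mul, LL_mul, Matrix.mul_one]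

end Vale.Agent.P366C
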