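import Vale.Agent.P366C.Stm
import Vale.Agent.P366.Main

/-! Assembly of the `Spin(9)` case. -/

namespace Vale.Agent.P366C

open scoped Matrix ContDiff Topology
open Filter Set
open Vale.Agent.P366 (Pt Ten rad mu cur curNorm meanCurv trS omega area energyFlux momFlux Decay
  Dat exists_rad)
open Vale.Agent.P366N

theorem ne_zero_of_rad {n : ℕ} {x : Pt n} {R : ℝ} (hR : 0 < R) (h : R ≤ rad x) : x ≠ 0 := by
  rintro rfl
  simp [rad] at h
  linarith

theorem pos_of_blk9 {S : Fin 9 → Matrix (Fin 16) (Fin 16) ℝ} (h : IsCliff S) {x : Pt 16}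
    (hx : x ≠ 0) {A B C : ℝ} (hp : (blk S x A B C).PosDef) : 0 < A ∧ 0 < B ∧ 0 < C := by
  have key : ∀ (u : Pt 16) (c : ℝ), u ≠ 0 → blk S x A B C *ᵥ u = c • u → 0 < c := by
    intro u c hu e
    have := hp.dotProduct_mulVec_pos hu
    rw [e, star_trivial, dotProduct_smul, smul_eq_mul] at this
    exact (mul_pos_iff_of_pos_right (P366.dot_pos hu)).1 this
  have ex : ∀ M : Matrix (Fin 16) (Fin 16) ℝ, M.trace ≠ 0 → ∃ u, M *ᵥ u ≠ 0 := by
    intro M hM
    by_contra hc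
    push Not at hc
    apply hM
    have : M = 0 := by
      ext i j
      have := congrFun (hc (Pi.single j 1)) i
      simpa using this
    simp [this]
  obtain ⟨u, hu⟩ := ex (blk S x 0 1 0) (by rw [blk_trace h hx]; norm_num)
  obtain ⟨v, hv⟩ := ex (blk S x 0 0 1) (by rw [blk_trace h hx]; norm_num)
  exact ⟨key x A hx (blk_x h hx _ _ _), key _ B hu (blk_ver (blk_ver_mem h hx u) _ _ _),
    key _ C hv (blk_hor h hx (blk_hor_mem h hx v) _ _ _)⟩

theorem spin_of (hO : OdeStmt) (hS : ScalStmt) (hK : KStmt) (hH : HStmt) (hC : CurStmt)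
    (hCs : CsStmt) (hF : FluxStmt) (hD : DecayStmt) (hSm : SmoothStmt) (hCg : CongrStmt)
    (hI : Inv9Stmt) (J : Fin 9 → Matrix (Fin 16) (Fin 16) ℝ) (hJ : IsCliff J) :
    PenroseFor (spinGroup J) := by
  rintro g K R E P ⟨hR, ⟨R₀, hR₀, hsm⟩, hpd, τ, hτ, hdec⟩ hg hKi hDEC htrap hE hP
  obtain ⟨A, B, C, eg, hA, hB, hC'⟩ := hI J g R₀ R hJ hR hR₀ (fun x hx i j => (hsm x hx i j).1)
    (fun x hx => by simpa using (hpd x hx).1.1.eq) hg
  obtain ⟨a, b, c, eK, ha, hb, hc⟩ := hI J K R₀ R hJ hR hR₀ (fun x hx i j => (hsm x hx i j).2)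
    (fun x hx => (hpd x hx).2) hKi
  let D : Dat := ⟨A, B, C, a, b, c, hA, hB, hC', ha, hb, hc⟩
  obtain ⟨c1, c2, c3, c4, c5⟩ := hCg 16 g (hopf J D.A D.B D.C) K (hopf J D.a D.b D.c) R hR
    (fun x hx => ⟨eg x hx, eK x hx⟩) (fun x hx i j =>
      ⟨(hsm x (hx ▸ hR₀) i j).1.of_le (by exact_mod_cast le_top),
        (hSm J A B C x (ne_zero_of_rad hR hx.ge) hA hB hC' i j).of_le (by norm_num)⟩)
  have hn0 : 0 < 16 := by omega
  have hR2 : 0 < R ^ 2 := by positivity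
  have hpos : ∀ t, R ^ 2 ≤ t → 0 < D.A t ∧ 0 < D.B t ∧ 0 < D.C t := by
    intro t ht
    obtain ⟨x, hx, hxt, hrx⟩ := exists_rad hn0 (hR2.trans_le ht)
    have h1 : R ≤ rad x := by rw [hrx]; exact Real.le_sqrt_of_sq_le ht
    have h2 := (hpd x h1).1
    rw [eg x h1, hopf, hxt] at h2
    exact pos_of_blk9 hJ hx h2
  have hfl : ∀ r, R ≤ r → _ := fun r hr =>
    have h2 : R ^ 2 ≤ r ^ 2 := by gcongr
    hF J D r hJ (hR.trans_le hr) (hpos _ h2).1 (hpos _ h2).2.1 (hpos _ h2).2.2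
  have hP0 : P = 0 := by
    funext i
    refine tendsto_nhds_unique (hP i) ?_
    refine tendsto_const_nhds.congr' ?_
    filter_upwards [eventually_gt_atTop R] with r hr
    exact (((c4 r hr).2 i).trans ((hfl r hr.le).2.1 i)).symm
  have hrad0 : rad P = 0 := by simp [hP0, rad]
  have hE' : Tendsto (fun t : ℝ => √t ^ 14 * F1 D t / 30) atTop (𝓝 E) := by
    refine (hE.comp Real.tendsto_sqrt_atTop).congr' ?_
    filter_upwards [eventually_gt_atTop (R ^ 2)] with t ht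
    have h1 : R < √t := Real.lt_sqrt_of_sq_lt ht
    have h2 := (hfl _ h1.le).1
    rw [Real.sq_sqrt (hR2.le.trans ht.le)] at h2
    exact ((c4 _ h1).1).trans h2
  obtain ⟨t, ht, hle⟩ := hO D (R ^ 2) E hR2 hpos (fun t ht => by
      obtain ⟨x, hx, hxt, hrx⟩ := exists_rad hn0 (hR2.trans ht)
      obtain ⟨hA, hB, hC'⟩ := hpos t ht.le
      rw [← hxt] at hA hB hC'
      have h0 : R < rad x := by rw [hrx]; exact Real.lt_sqrt_of_sq_lt ht
      have h1 := hDEC x h0.le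
      rw [(c1 x h0).1, (c1 x h0).2] at h1
      have h2 := hCs J x (fun j => cur (hopf J D.A D.B D.C) (hopf J D.a D.b D.c) j x) _ _ _ hJ hx
        hA hB hC'
      rw [hC J D x hJ hx hA hB.ne' hC'.ne'] at h2
      obtain ⟨k1, k2, -, -⟩ := hK J D x hJ hx hA hB.ne' hC'.ne'
      rw [mu, hS J D x hJ hx hA.ne' hB.ne' hC'.ne', k1, k2] at h1
      rw [← hxt]
      exact h2.trans h1) (by
      obtain ⟨x, hx, hxt, hrx⟩ := exists_rad hn0 hR2
      obtain ⟨hA, hB, hC'⟩ := hpos _ le_rfl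
      rw [← hxt] at hA hB hC'
      have h0 : rad x = R := by rw [hrx, Real.sqrt_sq hR.le]
      have h1 := htrap x h0
      rw [(c2 x h0).1, (c2 x h0).2, hH J D x hJ hx hA hB.ne' hC'.ne',
        (hK J D x hJ hx hA hB.ne' hC'.ne').2.2.1, hxt] at h1
      exact h1) (hD J D (R + 1) τ hJ (by linarith) (by norm_num at hτ; linarith) (c5 τ hdec)) hE'
  have hE0 : 0 ≤ E := by
    refine le_trans ?_ hle
    have : 0 ≤ ar1 D t := by unfold ar1; positivity
    positivity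
  refine ⟨by rw [hrad0]; exact hE0, √t, Real.le_sqrt_of_sq_le ht, ?_⟩
  rw [c3 _ (Real.le_sqrt_of_sq_le ht), (hfl _ (Real.le_sqrt_of_sq_le ht)).2.2,
    Real.sq_sqrt (hR2.le.trans ht), hrad0]
  have e : (((16 : ℕ) : ℝ) - 2) / (((16 : ℕ) : ℝ) - 1) = 14 / 15 := by norm_num
  rw [e]
  simpa [Real.sqrt_sq hE0] using hle

end Vale.Agent.P366C
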