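import Vale.Agent.P366C.MainN

/-! Assembly of the `Sp(m+1)` case. -/

namespace Vale.Agent.P366C

open scoped Matrix ContDiff Topology
open Filter Set
open Vale.Agent.P366 (Pt Ten rad mu cur curNorm meanCurv trS omega area energyFlux momFlux Decay
  IsQuat exists_rad)
open Vale.Agent.P366S

theorem sp_of (hO : OdeStmt) (hK : KStmt) (hH : HStmt) (hDec : DecStmt) (hKey : KeyDiagStmt)
    (hRot : RotStmt) (hReg : RegStmt) (hPos : PosStmt) (hM : M2SStmt) (hF : FluxStmt)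
    (hD : DecayStmt) (hSm : SmoothStmt) (hCg : CongrStmt) (hI : InvSpStmt)
    (n : ℕ) (hn : 4 < n) (J : Fin 3 → Matrix (Fin n) (Fin n) ℝ) (hJ : IsQuat J) :
    PenroseFor (spGroup J) := by
  rintro g K R E P ⟨hR, ⟨R₀, hR₀, hsm⟩, hpd, τ, hτ, hdec⟩ hg hKi hDEC htrap hE hP
  obtain ⟨F, C, eg, sF, hF', hC'⟩ := hI n J g R₀ R hn hJ hR hR₀ (fun x hx i j => (hsm x hx i j).1)
    (fun x hx => by simpa using (hpd x hx).1.1.eq) hg
  obtain ⟨F2, c, eK, sK, hK', hc⟩ := hI n J K R₀ R hn hJ hR hR₀ (fun x hx i j => (hsm x hx i j).2)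
    (fun x hx => (hpd x hx).2) hKi
  let D : Dat := ⟨F, F2, C, c, sF, sK, fun t _ a b => (hF' a b).contDiffAt,
    fun t _ a b => (hK' a b).contDiffAt, fun t _ => hC'.contDiffAt, fun t _ => hc.contDiffAt⟩
  obtain ⟨c1, c2, c3, c4, c5⟩ := hCg n g (hopf J D.F D.C) K (hopf J D.K D.c) R hR
    (fun x hx => ⟨eg x hx, eK x hx⟩) (fun x hx i j =>
      ⟨(hsm x (hx ▸ hR₀) i j).1.of_le (by exact_mod_cast le_top),
        (hSm n J F C x (ne_zero_of_rad hR hx.ge) (fun a b => (hF' a b).contDiffAt)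
          hC'.contDiffAt i j).of_le (by norm_num)⟩)
  have hn0 : 0 < n := by omega
  have hq : (0 : ℝ) ≤ (n : ℝ) - 4 := by
    have : (4 : ℝ) ≤ n := by exact_mod_cast hn.le
    linarith
  have hR2 : 0 < R ^ 2 := by positivity
  have hpos : ∀ t, R ^ 2 ≤ t → (D.F t).PosDef ∧ 0 < D.C t := by
    intro t ht
    obtain ⟨x, hx, hxt, hrx⟩ := exists_rad hn0 (hR2.trans_le ht)
    have h1 : R ≤ rad x := by rw [hrx]; exact Real.le_sqrt_of_sq_le ht
    have h2 := (hpd x h1).1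
    rw [eg x h1, hopf, hxt] at h2
    exact (hPos n J x _ _ hn hJ hx (sF t)).1 h2
  have hfl : ∀ r, R ≤ r → _ := fun r hr =>
    have h2 : R ^ 2 ≤ r ^ 2 := by gcongr
    hF n J D r hn hJ (hR.trans_le hr) (hpos _ h2).1 (hpos _ h2).2
  have hP0 : P = 0 := by
    funext i
    refine tendsto_nhds_unique (hP i) ?_
    refine tendsto_const_nhds.congr' ?_
    filter_upwards [eventually_gt_atTop R] with r hr
    exact (((c4 r hr).2 i).trans ((hfl r hr.le).2.1 i)).symm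
  have hrad0 : rad P = 0 := by simp [hP0, rad]
  have hE' : Tendsto (fun t : ℝ => √t ^ (n - 2) * F1 ((n : ℝ) - 4) (toSca ((n : ℝ) - 4) D) t
      / (2 * ((n : ℝ) - 1))) atTop (𝓝 E) := by
    refine (hE.comp Real.tendsto_sqrt_atTop).congr' ?_
    filter_upwards [eventually_gt_atTop (R ^ 2)] with t ht
    have h1 : R < √t := Real.lt_sqrt_of_sq_lt ht
    have h2 := (hfl _ h1.le).1
    rw [Real.sq_sqrt (hR2.le.trans ht.le)] at h2
    exact ((c4 _ h1).1).trans h2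
  obtain ⟨t, ht, hle⟩ := hO n (toSca ((n : ℝ) - 4) D) (R ^ 2) E hn hR2
    (fun t ht => hReg _ D t (hR2.trans_le ht) (hpos t ht).1 (hpos t ht).2) (fun t ht => by
      obtain ⟨x, hx, hxt, hrx⟩ := exists_rad hn0 (hR2.trans ht)
      obtain ⟨hA, hB⟩ := hpos t ht.le
      have h0 : R < rad x := by rw [hrx]; exact Real.lt_sqrt_of_sq_lt ht
      have h1 := hDEC x h0.le
      rw [(c1 x h0).1, (c1 x h0).2] at h1
      obtain ⟨J', D', hJ', r1, r2, r3, r4, r5, r6, r7⟩ := hRot n J D ((n : ℝ) - 4) t hJ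
      have hB' : 0 < D'.C t := by
        have : D'.C = D.C := congrArg Sca.C r3
        rw [this]; exact hB
      rw [← r1, ← r2] at h1
      have h2 := hDec n J' D' x hn hJ' hx (by rw [hxt]; exact r4 hA) (by rw [hxt]; exact hB') h1
      rw [hxt] at h2
      rw [← r3]
      exact hKey _ D' t hq (hR2.trans ht) (r4 hA) hB' r5 r6 r7 h2) (by
      obtain ⟨x, hx, hxt, hrx⟩ := exists_rad hn0 hR2
      obtain ⟨hA, hB⟩ := hpos _ le_rfl
      rw [← hxt] at hA hB
      have h0 : rad x = R := by rw [hrx, Real.sqrt_sq hR.le]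
      have h1 := htrap x h0
      rw [(c2 x h0).1, (c2 x h0).2, hH n J D x hJ hx hA hB,
        (hK n J D x hJ hx hA.det_pos.ne' (hA.inv.diag_pos) hB.ne').2.2, hxt] at h1
      exact h1) (hM n D hn (hD n J D (R + 1) τ hn hJ (by linarith) hτ (c5 τ hdec))) hE'
  have hE0 : 0 ≤ E := by
    refine le_trans ?_ hle
    have : 0 ≤ ar1 n (toSca ((n : ℝ) - 4) D) t := by unfold ar1; positivity
    positivity
  refine ⟨by rw [hrad0]; exact hE0, √t, Real.le_sqrt_of_sq_le ht, ?_⟩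
  rw [c3 _ (Real.le_sqrt_of_sq_le ht), (hfl _ (Real.le_sqrt_of_sq_le ht)).2.2,
    Real.sq_sqrt (hR2.le.trans ht), hrad0]
  simpa [Real.sqrt_sq hE0] using hle

end Vale.Agent.P366C
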