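import Vale.Agent.P366C.Defs
import Vale.Agent.P366N.Stm2
import Vale.Agent.P366S.Stm2

/-! Reduction of invariant data to the ansatz. -/

namespace Vale.Agent.P366C

open scoped Matrix ContDiff Topology
open Filter Set Matrix
open Vale.Agent.P366 (Pt Ten rad pd mu curNorm meanCurv trS area energyFlux momFlux Decay IsQuat)
open Vale.Agent.P366N (IsCliff prL)

def CutStmt : Prop :=
  ∀ a b : ℝ, a < b → ∃ χ : ℝ → ℝ, ContDiff ℝ ∞ χ ∧ (∀ t, a < χ t) ∧ ∀ t, b ≤ t → χ t = t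

def CongrStmt : Prop :=
  ∀ (n : ℕ) (g g' K K' : Ten n) (R : ℝ), 0 < R →
    (∀ x, R ≤ rad x → g x = g' x ∧ K x = K' x) →
    (∀ x, rad x = R → ∀ i j,
      ContDiffAt ℝ 1 (fun y => g y i j) x ∧ ContDiffAt ℝ 1 (fun y => g' y i j) x) →
    (∀ x, R < rad x → mu g K x = mu g' K' x ∧ curNorm g K x = curNorm g' K' x) ∧
    (∀ x, rad x = R → meanCurv g x = meanCurv g' x ∧ trS g K x = trS g' K' x) ∧
    (∀ r, R ≤ r → area g r = area g' r) ∧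
    (∀ r, R < r → energyFlux g r = energyFlux g' r ∧ ∀ i, momFlux g K i r = momFlux g' K' i r) ∧
    ∀ τ, Decay g K R τ → Decay g' K' (R + 1) τ

def InvSpStmt : Prop :=
  ∀ (n : ℕ) (J : Fin 3 → Matrix (Fin n) (Fin n) ℝ) (h : Ten n) (R₀ R : ℝ), 4 < n → IsQuat J →
    0 < R → R₀ < R → (∀ x, R₀ < rad x → ∀ i j, ContDiffAt ℝ ∞ (fun y => h y i j) x) →
    (∀ x, R ≤ rad x → (h x)ᵀ = h x) → Invt (spGroup J) h R →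
    ∃ (F : ℝ → P366S.M4) (C : ℝ → ℝ), (∀ x, R ≤ rad x → h x = P366S.hopf J F C x) ∧
      (∀ t, (F t)ᵀ = F t) ∧ (∀ a b, ContDiff ℝ ∞ (fun s => F s a b)) ∧ ContDiff ℝ ∞ C

def GrpStmt : Prop :=
  ∀ S : Fin 9 → Matrix (Fin 16) (Fin 16) ℝ, IsCliff S →
    1 ∈ spinGroup S ∧ (∀ U ∈ spinGroup S, ∀ V ∈ spinGroup S, U * V ∈ spinGroup S) ∧
    (∀ c : Fin 9 → ℝ, c ⬝ᵥ c = 1 → ∑ i, c i • S i ∈ spinGroup S) ∧
    ∀ U ∈ spinGroup S, ∀ x, prL S (U *ᵥ x) = U * prL S x * Uᵀ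

/-- Triality: products of two reflections of the octonionic line lift to the group. -/
def TriStmt : Prop :=
  ∀ (S : Fin 9 → Matrix (Fin 16) (Fin 16) ℝ) (x m m' : Pt 16), IsCliff S → x ≠ 0 →
    prL S x *ᵥ m = m → prL S x *ᵥ m' = m' → m ⬝ᵥ m = 1 → m' ⬝ᵥ m' = 1 →
    ∃ U ∈ spinGroup S,
      (∀ z, prL S x *ᵥ z = z → U *ᵥ z =
        (z - (2 * (m' ⬝ᵥ z)) • m') - (2 * (m ⬝ᵥ (z - (2 * (m' ⬝ᵥ z)) • m'))) • m) ∧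
      ∀ b : Fin 9 → ℝ, ∑ i, b i * (x ⬝ᵥ (S i *ᵥ x)) = 0 →
        U *ᵥ ((∑ i, b i • S i) *ᵥ m') = (∑ i, b i • S i) *ᵥ m

def IsoStmt : Prop :=
  ∀ (S : Fin 9 → Matrix (Fin 16) (Fin 16) ℝ) (x : Pt 16), IsCliff S → x ≠ 0 →
    (∃ U ∈ spinGroup S, (∀ z, prL S x *ᵥ z = z → U *ᵥ z = z) ∧
      ∀ v, P366N.Hor S x v → U *ᵥ v = -v) ∧
    (∀ v w, P366N.Hor S x v → P366N.Hor S x w → v ⬝ᵥ v = w ⬝ᵥ w →
      ∃ U ∈ spinGroup S, U *ᵥ x = x ∧ U *ᵥ v = w) ∧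
    ∀ v w, P366N.Ver S x v → P366N.Ver S x w → v ⬝ᵥ v = w ⬝ᵥ w →
      ∃ U ∈ spinGroup S, U *ᵥ x = x ∧ U *ᵥ v = w

def Trans9Stmt : Prop :=
  ∀ (S : Fin 9 → Matrix (Fin 16) (Fin 16) ℝ) (x y : Pt 16), IsCliff S → x ⬝ᵥ x = y ⬝ᵥ y →
    ∃ U ∈ spinGroup S, U *ᵥ x = y

def Inv9Stmt : Prop :=
  ∀ (S : Fin 9 → Matrix (Fin 16) (Fin 16) ℝ) (h : Ten 16) (R₀ R : ℝ), IsCliff S →
    0 < R → R₀ < R → (∀ x, R₀ < rad x → ∀ i j, ContDiffAt ℝ ∞ (fun y => h y i j) x) →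
    (∀ x, R ≤ rad x → (h x)ᵀ = h x) → Invt (spinGroup S) h R →
    ∃ A B C : ℝ → ℝ, (∀ x, R ≤ rad x → h x = P366N.hopf S A B C x) ∧
      ContDiff ℝ ∞ A ∧ ContDiff ℝ ∞ B ∧ ContDiff ℝ ∞ C

end Vale.Agent.P366C
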